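import Vale.Agent.P213.Free.Extend.Whisker

/-!
# Extending a functor over the atoms of the next dimension
-/

open CategoryTheory

namespace Vale.Agent.P213.ADC

noncomputable section

variable {K : ADC}

theorem Data.stg_top (D : Data K) {k : ℕ} {a : K.B (k + 1)} {c : Table K} (hc : D.Stg a k c) :
    Le (k + 1) c ∧ c.x (k + 1) true = K.gen a :=
  ⟨hc.le k.lt_succ_self, by rw [hc _ _ k.lt_succ_self, (D.isAtom _ a).top]⟩

/-- A generator has one atom only. -/
theorem Data.atom_unique (D : Data K) {n : ℕ} {a : K.B n} {c : Table K} (hc : K.IsAtom a c) :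
    c = D.atom a := by
  have key : ∀ (d l : ℕ), l + d = n → ∀ s, c.x l s = (D.atom a).x l s := by
    intro d
    induction d with
    | zero =>
      intro l hl s
      obtain rfl : l = n := hl
      rw [hc.top, (D.isAtom _ a).top]
    | succ d ih =>
      intro l hl s
      have hd : ∀ b, c.x l true b - c.x l false b =
          (D.atom a).x l true b - (D.atom a).x l false b := fun b => by
        have h1 := congrArg (fun f => f b) (c.bdry l true)
        have h2 := congrArg (fun f => f b) ((D.atom a).bdry l true)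
        simp only [ih (l + 1) (by omega) true, Finsupp.sub_apply] at h1 h2
        exact h1.symm.trans h2
      ext b
      have h1 := congrArg (fun f => f b) (hc.min l (by omega))
      have h2 := D.atom_min a (l := l) (by omega) b
      simp only [Finsupp.inf_apply, Finsupp.coe_zero, Pi.zero_apply] at h1
      have := hd b
      cases s <;> omega
  refine Table.ext (funext fun l => funext fun s => ?_)
  rcases le_or_gt l n with hl | hl
  · exact key (n - l) l (by omega) s
  · rw [hc.above l s hl, (D.isAtom n a).above l s hl]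

theorem gen_ne_zero {n : ℕ} (a : K.B n) : K.gen a ≠ 0 :=
  Finsupp.single_ne_zero.2 one_ne_zero

namespace Ext

variable {D : Data K} {X : OCat} {k : ℕ} {E : Ext D X k}

theorem top_swap {y y' : K.B (k + 1)} (hy : D.r y' ≤ D.r y) {s m : Table K}
    (hs : D.Stg y k s) (hm : D.Stg y' k m) (h : m.face k false = s.face k true) :
    ∃ s' m' : Table K, D.Stg y k s' ∧ D.Stg y' k m' ∧ s'.face k false = m'.face k true ∧
      (nu K).cmp k m s = (nu K).cmp k s' m' ∧
      X.cmp k (E.V y' k m) (E.V y k s) = X.cmp k (E.V y k s') (E.V y' k m') := by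
  obtain ⟨hm1, hmt⟩ := D.stg_top hm
  have hr : ∀ e, m.x (k + 1) true e ≠ 0 → D.r e ≤ D.r y := by
    intro e he
    rw [hmt] at he
    by_cases hey : e = y'
    · rw [hey]; exact hy
    · exact absurd (Finsupp.single_eq_of_ne hey) he
  cases k with
  | zero =>
    have hsat := hs.eq_atom one_pos
    have := D.below_zero one_pos y (c := m) (by rw [← hsat]; exact (Table.composable h).2) hr
    exact absurd (hmt.symm.trans this) (gen_ne_zero _)
  | succ J =>
    have hgood : E.Good J (m.x (J + 2) true) (E.V y' (J + 1)) := by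
      rw [hmt]
      exact
        { rep := fun S hS h => rep_V y' _ S le_rfl (Data.stg_of_top hS h)
          left := fun T S hT hS h he =>
            (whisker_left y' _ S T J le_rfl (Data.stg_of_top hS h) hT J.lt_succ_self he).2
          right := fun S T hT hS h he =>
            (whisker_right y' _ S T J le_rfl (Data.stg_of_top hS h) hT J.lt_succ_self he).2 }
    obtain ⟨s', m', h1, h2, h3, h4, h5, h6⟩ :=
      swap_below J.lt_succ_self (mGoal y J J.lt_succ_self) hs hm1 h hr hgood
    exact ⟨s', m', h1, Data.stg_of_top h2 (h3.trans hmt), h4, h5, h6⟩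

theorem V_atom {a : K.B (k + 1)} {c : Table K} (hc : K.IsAtom a c) :
    ∀ j, j ≤ k → E.V a j c = E.φ a := by
  intro j
  induction j with
  | zero => intro _; rfl
  | succ J ih =>
    intro hJ
    obtain rfl := D.atom_unique hc
    have hm : D.Stg a J (D.atom a) := fun l s _ => rfl
    have hL : Le J ((D.atom a).face J true) := le_face _ _ _
    have hR : Le J ((D.atom a).face J false) := le_face _ _ _
    have h₁ : (D.atom a).face J false = ((D.atom a).face J false).face J true :=
      (hR.face_eq le_rfl true).symm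
    have hinner : (nu K).cmp J (D.atom a) ((D.atom a).face J false) = D.atom a :=
      cmp_unit_right' rfl
    obtain ⟨-, hV⟩ := mGoal (E := E) a J (by omega) ((D.atom a).face J true) (D.atom a)
      ((D.atom a).face J false) hm (hL.mono J.le_succ) (hR.mono J.le_succ) h₁
      (by rw [hinner]; exact hL.face_eq le_rfl false)
    rw [hinner, cmp_unit_left' rfl] at hV
    have hrep := rep_V (E := E) a J (D.atom a) (by omega) hm
    rw [hV, X.cmp_unit_right (hrep.src J (by omega)), X.cmp_unit_left (hrep.tgt J (by omega)),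
      ih (by omega)]

variable (E)

open Classical in
/-- The value at a cell with `m` generators in the top level. -/
def gAux : ℕ → Table K → X.Cell
  | 0, c => E.fv c
  | m + 1, c =>
    if h : c.x (k + 1) true = 0 then E.fv c else
      X.cmp k (gAux m (sndCut c k (K.gen (D.exists_min h).choose)))
        (E.V (D.exists_min h).choose k (fstCut c k (K.gen (D.exists_min h).choose)))

/-- The extension. -/
def g (c : Table K) : X.Cell := E.gAux (wt (c.x (k + 1) true)).toNat c

variable {E}

theorem g_of_zero {c : Table K} (h : c.x (k + 1) true = 0) : E.g c = E.fv c := by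
  rw [g, h, map_zero]; rfl

/-- The first generator can be peeled off in only one way. -/
theorem g_peel {a : K.B (k + 1)} {P S : Table K} (hP : Le (k + 1) P) (hS : D.Stg a k S)
    (h : P.face k false = S.face k true)
    (hmin : ∀ e, P.x (k + 1) true e ≠ 0 → D.r a ≤ D.r e) :
    E.g ((nu K).cmp k P S) = X.cmp k (E.g P) (E.V a k S) := by
  set c : Table K := (nu K).cmp k P S
  obtain ⟨hS1, hSt⟩ := D.stg_top hS
  have htop : c.x (k + 1) true = P.x (k + 1) true + K.gen a := by
    rw [cmp_top h k.lt_succ_self, hSt]
  have hne : c.x (k + 1) true ≠ 0 := by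
    intro h0
    have := congrArg (fun f => f a) (htop.symm.trans h0)
    have h1 : 0 ≤ P.x (k + 1) true a := P.nonneg _ _ a
    simp only [Finsupp.add_apply, gen, Finsupp.single_eq_same, Finsupp.coe_zero,
      Pi.zero_apply] at this
    omega
  have hmin' : ∀ e, c.x (k + 1) true e ≠ 0 → D.r a ≤ D.r e := by
    intro e he
    by_cases hea : e = a
    · rw [hea]
    · refine hmin e fun h0 => he ?_
      rw [htop, Finsupp.add_apply, h0, gen, Finsupp.single_eq_of_ne hea, add_zero]
  have hw : wt (c.x (k + 1) true) = wt (P.x (k + 1) true) + 1 := by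
    rw [htop, map_add, gen, wt_single]
  have hwn : (wt (c.x (k + 1) true)).toNat = (wt (P.x (k + 1) true)).toNat + 1 := by
    have := wt_nonneg (P.nonneg (k + 1) true)
    omega
  rw [g, hwn, gAux, dif_neg hne]
  obtain ⟨hb, hbmin⟩ := (D.exists_min hne).choose_spec
  have hba : (D.exists_min hne).choose = a := by
    refine D.r_inj _ (le_antisymm (hbmin a ?_) (hmin' _ hb))
    rw [htop, Finsupp.add_apply, gen, Finsupp.single_eq_same]
    have h1 : 0 ≤ P.x (k + 1) true a := P.nonneg _ _ a
    omega
  rw [hba]
  obtain ⟨hle, hlow⟩ := Table.composable h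
  have hfok : CutOK c k (c.x k false) (c.x k false + K.d k (K.gen a)) (K.gen a) ∧
      CutOK c k (c.x k false + K.d k (K.gen a)) (c.x k true) (c.x (k + 1) true - K.gen a) :=
    D.cut_ok (Finsupp.single_nonneg.2 zero_le_one) (single_le (c.nonneg _ _) (by
      rw [htop, Finsupp.add_apply, gen, Finsupp.single_eq_same]
      have h1 : 0 ≤ P.x (k + 1) true a := P.nonneg _ _ a
      omega)) (D.sep_min hmin')
  have cx : ∀ l s, l < k → c.x l s = P.x l s := fun l s hl => by rw [cmp_x h, if_pos hl]
  have ck : ∀ s, c.x k s = if s then P.x k true else S.x k false := fun s => by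
    rw [cmp_x h, if_neg (lt_irrefl _), if_pos rfl]
  have eS : c.x k false + K.d k (K.gen a) = S.x k true := by
    rw [ck, ← hSt, S.bdry]; simp
  have e1 : fstCut c k (K.gen a) = S := by
    obtain ⟨f1, f2, f3, f4⟩ := cut_x hfok.1
    refine Table.ext (funext fun l => funext fun s => ?_)
    rcases lt_trichotomy l k with hl | rfl | hl
    · rw [fstCut, f1 l s hl, cx l s hl, hle l s hl]
    · rw [fstCut, f2]; cases s
      · exact ck false
      · exact eS
    · rcases Nat.eq_or_lt_of_le (Nat.succ_le_of_lt hl) with rfl | hl'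
      · rw [fstCut, f3, hS1.top_eq s true, hSt]
      · rw [fstCut, f4 l s hl', hS1 l s hl']
  have e2 : sndCut c k (K.gen a) = P := by
    obtain ⟨f1, f2, f3, f4⟩ := cut_x hfok.2
    refine Table.ext (funext fun l => funext fun s => ?_)
    rcases lt_trichotomy l k with hl | rfl | hl
    · rw [sndCut, f1 l s hl, cx l s hl]
    · rw [sndCut, f2]; cases s
      · exact eS.trans hlow.symm
      · exact ck true
    · rcases Nat.eq_or_lt_of_le (Nat.succ_le_of_lt hl) with rfl | hl'
      · rw [sndCut, f3, htop, add_sub_cancel_right, hP.top_eq s true]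
      · rw [sndCut, f4 l s hl', hP l s hl']
  rw [e1, e2]
  rfl

/-- Induction on the generators of the top level. -/
theorem peel_induction {p : Table K → Prop}
    (h0 : ∀ c, Le k c → p c)
    (hs : ∀ (a : K.B (k + 1)) (P S : Table K), Le (k + 1) P → D.Stg a k S →
      P.face k false = S.face k true → (∀ e, P.x (k + 1) true e ≠ 0 → D.r a ≤ D.r e) →
      p P → p ((nu K).cmp k P S)) :
    ∀ c, Le (k + 1) c → p c := by
  suffices H : ∀ (m : ℕ) (c : Table K), Le (k + 1) c → wt (c.x (k + 1) true) ≤ m → p c from
    fun c hc => H _ c hc (Int.self_le_toNat _)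
  intro m
  induction m with
  | zero =>
    intro c hc hm
    have h0' := wt_eq_zero (c.nonneg (k + 1) true) (le_antisymm hm (wt_nonneg (c.nonneg _ _)))
    exact h0 c (hc.eq_face h0' false).1
  | succ m ih =>
    intro c hc hm
    by_cases hz : c.x (k + 1) true = 0
    · exact h0 c (hc.eq_face hz false).1
    obtain ⟨a, ha, hmin⟩ := D.exists_min hz
    have hg : 0 ≤ K.gen a := Finsupp.single_nonneg.2 zero_le_one
    have hle := single_le (c.nonneg (k + 1) true) ha
    obtain ⟨o, e⟩ := D.cut_cmp hc hg hle (D.sep_min hmin)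
    obtain ⟨h₁, h₂⟩ := D.cut_ok hg hle (D.sep_min hmin)
    obtain ⟨-, -, f3, f4⟩ := cut_x h₁
    obtain ⟨-, -, g3, g4⟩ := cut_x h₂
    rw [← e]
    refine hs a _ _ g4 (Data.stg_of_top f4 (f3 true)) o (fun e' he' => hmin e' fun h0' => he' ?_)
      (ih _ g4 ?_)
    · rw [sndCut, g3, Finsupp.sub_apply, h0']
      by_cases hea : e' = a
      · exact absurd (hea ▸ h0') ha
      · rw [gen, Finsupp.single_eq_of_ne hea, sub_zero]
    · rw [sndCut, g3, map_sub, gen, wt_single]
      push_cast at hm
      omega

theorem rep_g {c : Table K} (hc : Le (k + 1) c) : E.Rep c (E.g c) := by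
  refine peel_induction (D := D) (p := fun c => E.Rep c (E.g c)) (fun c hc => ?_)
    (fun a P S hP hS h hmin ih => ?_) c hc
  · rw [g_of_zero (hc _ _ k.lt_succ_self)]
    exact rep_fv hc
  · rw [g_peel hP hS h hmin]
    exact ih.cmp (rep_V a k S le_rfl hS) le_rfl h

theorem g_single {a : K.B (k + 1)} {c : Table K} (hc : D.Stg a k c) : E.g c = E.V a k c := by
  have hP : Le k (c.face k true) := le_face _ _ _
  have h : (c.face k true).face k false = c.face k true := hP.face_eq le_rfl false
  have e : (nu K).cmp k (c.face k true) c = c := cmp_unit_left' rfl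
  conv_lhs => rw [← e]
  rw [g_peel (hP.mono k.le_succ) hc h fun e he => absurd (by
    rw [hP _ _ k.lt_succ_self]; rfl) he, g_of_zero (hP _ _ k.lt_succ_self),
    X.cmp_unit_left (by rw [(rep_V a k c le_rfl hc).tgt k le_rfl])]

/-- A single generator can be put in below. -/
theorem g_insert {A : Table K} (hA : Le (k + 1) A) :
    ∀ (y : K.B (k + 1)) (s : Table K), D.Stg y k s → A.face k false = s.face k true →
      E.g ((nu K).cmp k A s) = X.cmp k (E.g A) (E.V y k s) := by
  refine peel_induction (D := D) (p := fun A => ∀ (y : K.B (k + 1)) (s : Table K), D.Stg y k s →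
      A.face k false = s.face k true →
      E.g ((nu K).cmp k A s) = X.cmp k (E.g A) (E.V y k s))
    (fun A hA y s hs h => g_peel (hA.mono k.le_succ) hs h fun e he => absurd (by
      rw [hA _ _ k.lt_succ_self]; rfl) he) ?_ A hA
  intro a P S hP hS hPS hmin ih y s hs h
  obtain ⟨hS1, hSt⟩ := D.stg_top hS
  have hSs : S.face k false = s.face k true := ((nu K).src_cmp_le hPS le_rfl).symm.trans h
  rcases le_or_gt (D.r y) (D.r a) with hya | hya
  · refine g_peel (hP.cmp hS1 hPS) hs h fun e he => hya.trans ?_
    rw [cmp_top hPS k.lt_succ_self, Finsupp.add_apply, hSt] at he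
    by_cases hea : e = a
    · rw [hea]
    · exact hmin e (by simpa [gen, Finsupp.single_eq_of_ne hea] using he)
  · obtain ⟨s', S', hs', hS', o, e, v⟩ := top_swap (E := E) hya.le hs hS hSs
    have hPs' : P.face k false = s'.face k true :=
      hPS.trans ((nu K).ends_eq hSs o e).2
    obtain ⟨hs'1, hs't⟩ := D.stg_top hs'
    have eA : (nu K).cmp k ((nu K).cmp k P S) s = (nu K).cmp k ((nu K).cmp k P s') S' := by
      rw [(nu K).cmp_assoc hPS hSs, e, (nu K).cmp_assoc hPs' o]
    rw [eA, g_peel (hP.cmp hs'1 hPs') hS' (((nu K).src_cmp_le hPs' le_rfl).trans o) (fun e he => by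
        rw [cmp_top hPs' k.lt_succ_self, Finsupp.add_apply, hs't] at he
        by_cases hey : e = y
        · rw [hey]; exact hya.le
        · exact hmin e (by simpa [gen, Finsupp.single_eq_of_ne hey] using he)),
      ih y s' hs' hPs', g_peel hP hS hPS hmin]
    have r : ∀ {b : K.B (k + 1)} {c : Table K}, D.Stg b k c → E.Rep c (E.V b k c) :=
      fun h => rep_V _ k _ le_rfl h
    rw [X.cmp_assoc ((rep_g hP).comp_ok (r hs') le_rfl hPs') ((r hs').comp_ok (r hS') le_rfl o),
      X.cmp_assoc ((rep_g hP).comp_ok (r hS) le_rfl hPS) ((r hS).comp_ok (r hs) le_rfl hSs), v]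

theorem g_cmp_top {A B : Table K} (hA : Le (k + 1) A) (hB : Le (k + 1) B)
    (h : A.face k false = B.face k true) :
    E.g ((nu K).cmp k A B) = X.cmp k (E.g A) (E.g B) := by
  revert h
  refine peel_induction (D := D) (p := fun B => A.face k false = B.face k true →
      E.g ((nu K).cmp k A B) = X.cmp k (E.g A) (E.g B)) ?_ ?_ B hB
  · intro B hB h
    have hAB : A.face k false = B := h.trans (hB.face_eq le_rfl true)
    rw [cmp_unit_right' hAB, g_of_zero (hB _ _ k.lt_succ_self),
      X.cmp_unit_right (by rw [(rep_g hA).src k le_rfl, hAB])]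
  · intro a P S hP hS hPS hmin ih h
    have hAP : A.face k false = P.face k true := h.trans ((nu K).tgt_cmp_le hPS le_rfl)
    have hAPS : ((nu K).cmp k A P).face k false = S.face k true :=
      ((nu K).src_cmp_le hAP le_rfl).trans hPS
    have e : (nu K).cmp k A ((nu K).cmp k P S) = (nu K).cmp k ((nu K).cmp k A P) S :=
      ((nu K).cmp_assoc hAP hPS).symm
    rw [e, g_insert (hA.cmp hP hAP) a S hS hAPS, g_peel hP hS hPS hmin, ih hAP,
      X.cmp_assoc ((rep_g hA).comp_ok (rep_g hP) le_rfl hAP)
        ((rep_g hP).comp_ok (rep_V a k S le_rfl hS) le_rfl hPS)]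

theorem g_whisker_right {A T : Table K} (hA : Le (k + 1) A) (hT : Le k T) {i : ℕ} (hi : i < k)
    (h : A.face i false = T.face i true) :
    E.g ((nu K).cmp i A T) = X.cmp i (E.g A) (E.fv T) := by
  revert h
  refine peel_induction (D := D) (p := fun A => A.face i false = T.face i true →
      E.g ((nu K).cmp i A T) = X.cmp i (E.g A) (E.fv T)) ?_ ?_ A hA
  · intro A hA h
    rw [g_of_zero (hA.cmp hT h _ _ k.lt_succ_self), g_of_zero (hA _ _ k.lt_succ_self),
      E.fv_cmp hA hT h]
  · intro a P S hP hS hPS hmin ih h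
    obtain ⟨hS1, -⟩ := D.stg_top hS
    have hSi : S.face i false = T.face i true :=
      ((nu K).src_cmp_le hPS hi.le).symm.trans h
    have hPi : P.face i false = T.face i true := by
      rw [← hSi, ← face_face_lt P hi false false, hPS, face_face_lt S hi false true]
    have hTk : T.face k false = T.face k true :=
      (hT.face_eq le_rfl false).trans (hT.face_eq le_rfl true).symm
    have e : (nu K).cmp i ((nu K).cmp k P S) T =
        (nu K).cmp k ((nu K).cmp i P T) ((nu K).cmp i S T) := by
      conv_lhs => arg 4; rw [← cmp_unit_right' (hT.face_eq le_rfl false)]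
      exact (nu K).interchange' hi hPS hTk hPi
    obtain ⟨hst, hV⟩ := whisker_right (E := E) a k S T i le_rfl hS hT hi hSi
    have o : ((nu K).cmp i P T).face k false = ((nu K).cmp i S T).face k true :=
      ((nu K).src_cmp_gt hPi hi).trans ((congrArg₂ ((nu K).cmp i) hPS hTk).trans
        ((nu K).tgt_cmp_gt hSi hi).symm)
    rw [e, g_cmp_top (hP.cmp (hT.mono k.le_succ) hPi) (hS1.cmp (hT.mono k.le_succ) hSi) o,
      ih hPi, g_single hst, hV, g_peel hP hS hPS hmin]
    have rS := rep_V (E := E) a k S le_rfl hS
    have hXT : X.src k (E.fv T) = X.tgt k (E.fv T) :=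
      (E.fv_dim T).trans (X.tgt_of_le (E.fv_dim T) le_rfl).symm
    conv_rhs => arg 4; rw [← X.cmp_unit_right (E.fv_dim T)]
    exact (X.interchange' hi ((rep_g hP).comp_ok rS le_rfl hPS) hXT
      ((rep_g hP).comp_ok (rep_fv hT) hi.le hPi)).symm

theorem g_whisker_left {A T : Table K} (hA : Le (k + 1) A) (hT : Le k T) {i : ℕ} (hi : i < k)
    (h : T.face i false = A.face i true) :
    E.g ((nu K).cmp i T A) = X.cmp i (E.fv T) (E.g A) := by
  revert h
  refine peel_induction (D := D) (p := fun A => T.face i false = A.face i true →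
      E.g ((nu K).cmp i T A) = X.cmp i (E.fv T) (E.g A)) ?_ ?_ A hA
  · intro A hA h
    rw [g_of_zero (hT.cmp hA h _ _ k.lt_succ_self), g_of_zero (hA _ _ k.lt_succ_self),
      E.fv_cmp hT hA h]
  · intro a P S hP hS hPS hmin ih h
    obtain ⟨hS1, -⟩ := D.stg_top hS
    have hPi : T.face i false = P.face i true :=
      h.trans ((nu K).tgt_cmp_le hPS hi.le)
    have hSi : T.face i false = S.face i true := by
      rw [hPi, ← face_face_lt P hi true false, hPS, face_face_lt S hi true true]
    have hTk : T.face k false = T.face k true :=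
      (hT.face_eq le_rfl false).trans (hT.face_eq le_rfl true).symm
    have e : (nu K).cmp i T ((nu K).cmp k P S) =
        (nu K).cmp k ((nu K).cmp i T P) ((nu K).cmp i T S) := by
      conv_lhs => arg 3; rw [← cmp_unit_right' (hT.face_eq le_rfl false)]
      exact (nu K).interchange' hi hTk hPS hPi
    obtain ⟨hst, hV⟩ := whisker_left (E := E) a k S T i le_rfl hS hT hi hSi
    have o : ((nu K).cmp i T P).face k false = ((nu K).cmp i T S).face k true :=
      ((nu K).src_cmp_gt hPi hi).trans ((congrArg₂ ((nu K).cmp i) hTk hPS).trans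
        ((nu K).tgt_cmp_gt hSi hi).symm)
    rw [e, g_cmp_top ((hT.mono k.le_succ).cmp hP hPi) ((hT.mono k.le_succ).cmp hS1 hSi) o,
      ih hPi, g_single hst, hV, g_peel hP hS hPS hmin]
    have rS := rep_V (E := E) a k S le_rfl hS
    have hXT : X.src k (E.fv T) = X.tgt k (E.fv T) :=
      (E.fv_dim T).trans (X.tgt_of_le (E.fv_dim T) le_rfl).symm
    conv_rhs => arg 3; rw [← X.cmp_unit_right (E.fv_dim T)]
    exact (X.interchange' hi hXT ((rep_g hP).comp_ok rS le_rfl hPS)
      ((rep_fv hT).comp_ok (rep_g hP) hi.le hPi)).symm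

theorem g_src {c : Table K} (hc : Le (k + 1) c) (i : ℕ) :
    E.g (c.face i false) = X.src i (E.g c) := by
  rcases le_or_gt i k with hi | hi
  · rw [g_of_zero ((le_face c i false).mono hi _ _ k.lt_succ_self), (rep_g hc).src i hi]
  · rw [hc.face_eq hi, X.src_of_le (rep_g hc).dim hi]

theorem g_tgt {c : Table K} (hc : Le (k + 1) c) (i : ℕ) :
    E.g (c.face i true) = X.tgt i (E.g c) := by
  rcases le_or_gt i k with hi | hi
  · rw [g_of_zero ((le_face c i true).mono hi _ _ k.lt_succ_self), (rep_g hc).tgt i hi]
  · rw [hc.face_eq hi, X.tgt_of_le (rep_g hc).dim hi]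

theorem g_cmp {A B : Table K} (hA : Le (k + 1) A) (hB : Le (k + 1) B) {i : ℕ}
    (h : A.face i false = B.face i true) :
    E.g ((nu K).cmp i A B) = X.cmp i (E.g A) (E.g B) := by
  rcases lt_trichotomy i k with hi | rfl | hi
  · set tA : Table K := A.face k false
    set tB : Table K := B.face k true
    have htA : Le k tA := le_face _ _ _
    have htB : Le k tB := le_face _ _ _
    have o1 : A.face i false = tB.face i true := h.trans (face_face_lt B hi true true).symm
    have o2 : tA.face i false = B.face i true := (face_face_lt A hi false false).trans h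
    have hXA : X.src k (E.g A) = E.fv tA := (rep_g hA).src k le_rfl
    have hXB : X.tgt k (E.g B) = E.fv tB := (rep_g hB).tgt k le_rfl
    have hoA : A.face k false = tA.face k true := (htA.face_eq le_rfl true).symm
    have hoB : tB.face k false = B.face k true := htB.face_eq le_rfl false
    have e : (nu K).cmp i A B = (nu K).cmp k ((nu K).cmp i A tB) ((nu K).cmp i tA B) := by
      conv_lhs => rw [← cmp_unit_right' (show A.face k false = tA from rfl),
        ← cmp_unit_left' (show B.face k true = tB from rfl)]
      exact (nu K).interchange' hi hoA hoB o1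
    have o : ((nu K).cmp i A tB).face k false = ((nu K).cmp i tA B).face k true :=
      ((nu K).src_cmp_gt o1 hi).trans ((congrArg₂ ((nu K).cmp i) hoA hoB).trans
        ((nu K).tgt_cmp_gt o2 hi).symm)
    rw [e, g_cmp_top (hA.cmp (htB.mono k.le_succ) o1) ((htA.mono k.le_succ).cmp hB o2) o,
      g_whisker_right hA htB hi o1, g_whisker_left hB htA hi o2]
    conv_rhs => rw [← X.cmp_unit_right hXA, ← X.cmp_unit_left hXB]
    exact (X.interchange' hi ((rep_g hA).comp_ok (rep_fv htA) le_rfl hoA)
      ((rep_fv htB).comp_ok (rep_g hB) le_rfl hoB)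
      ((rep_g hA).comp_ok (rep_fv htB) hi.le o1)).symm
  · exact g_cmp_top hA hB h
  · have hBA : A.face i false = B := h.trans (hB.face_eq hi true)
    rw [cmp_unit_right' hBA, X.cmp_unit_right]
    rw [← g_src hA, hBA]

end Ext

/-- A functor extends over the atoms of the next dimension. -/
theorem freeExtend : FreeExtendGoal := by
  intro K hK X k F φ hdim hbd
  obtain ⟨D⟩ := hK.nonempty_data
  let E : Ext D X k :=
    { F := F
      φ := φ
      φ_dim := hdim
      φ_bdry := fun b => hbd b (D.atom b) _ _ (D.isAtom _ b) }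
  refine ⟨{
    map := fun c => E.g c.1
    dim := fun c => (Ext.rep_g (E := E) c.2).dim
    map_src := fun i c _ => Ext.g_src (E := E) c.2 i
    map_tgt := fun i c _ => Ext.g_tgt (E := E) c.2 i
    map_comp := fun i a b h _ h' => ?_ }, fun c h h' => ?_, fun b c h hat => ?_⟩
  · exact (congrArg E.g ((nu K).cmp_eq h).symm).trans
      ((Ext.g_cmp (E := E) a.2 b.2 h).trans (X.cmp_eq h'))
  · show E.g c = F.map ⟨c, h'⟩
    rw [Ext.g_of_zero (h' _ _ k.lt_succ_self), E.fv_eq h']
  · show E.g c = φ b
    have hc : D.Stg b k c := Data.stg_of_top h (hat.top true)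
    rw [Ext.g_single hc]
    exact Ext.V_atom hat k le_rfl

end

end Vale.Agent.P213.ADC
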