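import Vale.Agent.P213.Free.Cmp

/-!
# Rebracketings used by the extension
-/

namespace Vale.Agent.P213.OCat

variable (X : OCat) {i j : ℕ}

theorem ends_eq {a b a' b' : X.Cell} (h : X.src i a = X.tgt i b) (h' : X.src i a' = X.tgt i b')
    (e : X.cmp i a b = X.cmp i a' b') : X.src i b = X.src i b' ∧ X.tgt i a = X.tgt i a' :=
  ⟨by rw [← X.src_cmp_le h le_rfl, e, X.src_cmp_le h' le_rfl],
    by rw [← X.tgt_cmp_le h le_rfl, e, X.tgt_cmp_le h' le_rfl]⟩

theorem assemble {Lh Ll m R m' E' Rh Rl E'' m'' : X.Cell} (h1 : X.src i Lh = X.tgt i Ll)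
    (h2 : X.src i Ll = X.tgt i m) (h3 : X.src i m = X.tgt i R) (h4 : X.src i m' = X.tgt i E')
    (e1 : X.cmp i Ll m = X.cmp i m' E') (h5 : X.src i Rh = X.tgt i Rl)
    (e2 : X.cmp i E' R = X.cmp i Rh Rl) (h7 : X.src i E'' = X.tgt i m'')
    (e3 : X.cmp i m' Rh = X.cmp i E'' m'') :
    X.src i Lh = X.tgt i E'' ∧ X.src i m'' = X.tgt i Rl ∧
      X.cmp i (X.cmp i Lh Ll) (X.cmp i m R) = X.cmp i (X.cmp i Lh E'') (X.cmp i m'' Rl) := by
  obtain ⟨s1, t1⟩ := X.ends_eq h2 h4 e1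
  have h8 : X.src i E' = X.tgt i R := s1.symm.trans h3
  have h6 : X.src i m' = X.tgt i Rh := h4.trans (X.ends_eq h8 h5 e2).2
  obtain ⟨s3, t3⟩ := X.ends_eq h6 h7 e3
  have h9 : X.src i Lh = X.tgt i E'' := h1.trans (t1.trans t3)
  have h10 : X.src i m'' = X.tgt i Rl := s3.symm.trans h5
  refine ⟨h9, h10, ?_⟩
  rw [X.cmp_assoc h1 (by rw [h2, X.tgt_cmp_le h3 le_rfl]), ← X.cmp_assoc h2 h3, e1,
    X.cmp_assoc h4 h8, e2, ← X.cmp_assoc h6 h5, e3, X.cmp_assoc h7 h10,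
    ← X.cmp_assoc h9 (by rw [h7, X.tgt_cmp_le h10 le_rfl])]

theorem tgt_cmp_le' {a b : X.Cell} (hij : i < j) (h : X.src j a = X.tgt j b) :
    X.tgt i (X.cmp j a b) = X.tgt i a := X.tgt_cmp_le h hij.le

theorem swap_low (hij : i < j) {T S SE : X.Cell} (hT : X.src i T = X.tgt i S)
    (hS : X.src j SE = S) :
    X.src i (X.tgt j T) = X.tgt i SE ∧ X.src i T = X.tgt i (X.tgt j SE) ∧
      X.src i (X.src j T) = X.tgt i SE ∧
      X.src j (X.cmp i T (X.tgt j SE)) = X.tgt j (X.cmp i (X.src j T) SE) ∧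
      X.cmp j (X.cmp i (X.tgt j T) SE) (X.cmp i T S) =
        X.cmp j (X.cmp i T (X.tgt j SE)) (X.cmp i (X.src j T) SE) := by
  subst hS
  rw [X.tgt_src_lt i j SE hij] at hT
  have a1 : X.src i (X.tgt j T) = X.tgt i SE := by rw [X.src_tgt_lt i j T hij, hT]
  have a2 : X.src i T = X.tgt i (X.tgt j SE) := by rw [X.tgt_tgt, min_eq_left hij.le, hT]
  have a3 : X.src i (X.src j T) = X.tgt i SE := by rw [X.src_src, min_eq_left hij.le, hT]
  refine ⟨a1, a2, a3, ?_, ?_⟩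
  · rw [X.src_cmp_gt a2 hij, X.tgt_cmp_gt a3 hij, X.src_tgt_ge j j SE le_rfl,
      X.tgt_src_ge j j T le_rfl]
  · rw [← X.interchange' hij (X.src_tgt_ge j j T le_rfl) (X.tgt_src_ge j j SE le_rfl).symm a1,
      ← X.interchange' hij (X.tgt_src_ge j j T le_rfl).symm (X.src_tgt_ge j j SE le_rfl) a2,
      X.cmp_unit_left rfl, X.cmp_unit_right rfl, X.cmp_unit_right rfl, X.cmp_unit_left rfl]

theorem swap_high (hij : i < j) {T S SE : X.Cell} (hT : X.src i S = X.tgt i T)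
    (hS : X.tgt j SE = S) :
    X.src i SE = X.tgt i (X.src j T) ∧ X.src i SE = X.tgt i (X.tgt j T) ∧
      X.src i (X.src j SE) = X.tgt i T ∧
      X.src j (X.cmp i SE (X.tgt j T)) = X.tgt j (X.cmp i (X.src j SE) T) ∧
      X.cmp j (X.cmp i S T) (X.cmp i SE (X.src j T)) =
        X.cmp j (X.cmp i SE (X.tgt j T)) (X.cmp i (X.src j SE) T) := by
  subst hS
  rw [X.src_tgt_lt i j SE hij] at hT
  have a1 : X.src i SE = X.tgt i (X.src j T) := by rw [X.tgt_src_lt i j T hij, hT]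
  have a2 : X.src i SE = X.tgt i (X.tgt j T) := by rw [X.tgt_tgt, min_eq_left hij.le, hT]
  have a3 : X.src i (X.src j SE) = X.tgt i T := by rw [X.src_src, min_eq_left hij.le, hT]
  have a4 : X.src i (X.tgt j SE) = X.tgt i T := by rw [X.src_tgt_lt i j SE hij, hT]
  refine ⟨a1, a2, a3, ?_, ?_⟩
  · rw [X.src_cmp_gt a2 hij, X.tgt_cmp_gt a3 hij, X.src_tgt_ge j j T le_rfl,
      X.tgt_src_ge j j SE le_rfl]
  · rw [← X.interchange' hij (X.src_tgt_ge j j SE le_rfl) (X.tgt_src_ge j j T le_rfl).symm a4,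
      ← X.interchange' hij (X.tgt_src_ge j j SE le_rfl).symm (X.src_tgt_ge j j T le_rfl) a2,
      X.cmp_unit_left rfl, X.cmp_unit_right rfl, X.cmp_unit_right rfl, X.cmp_unit_left rfl]

theorem whisk_right (hij : i < j) {L m R d : X.Cell} (h₁ : X.src j m = X.tgt j R)
    (h₂ : X.src j L = X.tgt j (X.cmp j m R)) (h : X.src i R = X.tgt i d) :
    X.src i L = X.tgt i d ∧ X.src i m = X.tgt i (X.src j d) ∧ X.src i R = X.tgt i (X.src j d) ∧
      X.src j (X.cmp i m (X.src j d)) = X.tgt j (X.cmp i R (X.src j d)) ∧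
      X.src j (X.cmp i L d) =
        X.tgt j (X.cmp j (X.cmp i m (X.src j d)) (X.cmp i R (X.src j d))) ∧
      X.cmp i (X.cmp j L (X.cmp j m R)) d =
        X.cmp j (X.cmp i L d) (X.cmp j (X.cmp i m (X.src j d)) (X.cmp i R (X.src j d))) := by
  have t : ∀ x : X.Cell, X.tgt i (X.src j x) = X.tgt i x := fun x => X.tgt_src_lt i j x hij
  have u : ∀ x y : X.Cell, X.src j x = X.tgt j y → X.src i x = X.src i y := fun x y hxy => by
    rw [← X.src_tgt_lt i j y hij, ← hxy, X.src_src, min_eq_left hij.le]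
  have a1 : X.src i L = X.tgt i d := by rw [u _ _ h₂, X.src_cmp_le h₁ hij.le, h]
  have a2 : X.src i m = X.tgt i (X.src j d) := by rw [u _ _ h₁, h, t]
  have a3 : X.src i R = X.tgt i (X.src j d) := by rw [t, h]
  have e0 : X.src j (X.src j d) = X.src j d ∧ X.tgt j (X.src j d) = X.src j d :=
    ⟨by rw [X.src_src, min_self], X.tgt_src_ge j j d le_rfl⟩
  have a4 : X.src j (X.cmp i m (X.src j d)) = X.tgt j (X.cmp i R (X.src j d)) := by
    rw [X.src_cmp_gt a2 hij, X.tgt_cmp_gt a3 hij, h₁, e0.1, e0.2]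
  refine ⟨a1, a2, a3, a4, ?_, ?_⟩
  · rw [X.src_cmp_gt a1 hij, X.tgt_cmp_le a4 le_rfl, X.tgt_cmp_gt a2 hij, h₂,
      X.tgt_cmp_le h₁ le_rfl, e0.2]
  have hd : X.src j d = X.tgt j (X.src j d) := (X.tgt_src_ge j j d le_rfl).symm
  conv_lhs => arg 4; rw [← X.cmp_unit_right (a := d) (b := X.src j d) (i := j) rfl]
  rw [X.interchange' hij h₂ hd a1]
  congr 1
  have hd' : X.src j (X.src j d) = X.tgt j (X.src j d) := by rw [X.src_src, min_self, ← hd]
  conv_lhs => arg 4; rw [← X.cmp_unit_right (a := X.src j d) (b := X.src j d) (i := j)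
    (by rw [X.src_src, min_self])]
  rw [X.interchange' hij h₁ hd' a2]

theorem whisk_left (hij : i < j) {L m R d : X.Cell} (h₁ : X.src j m = X.tgt j R)
    (h₂ : X.src j L = X.tgt j (X.cmp j m R)) (h : X.src i d = X.tgt i L) :
    X.src i (X.src j d) = X.tgt i m ∧ X.src i (X.src j d) = X.tgt i R ∧
      X.src j (X.cmp i (X.src j d) m) = X.tgt j (X.cmp i (X.src j d) R) ∧
      X.src j (X.cmp i d L) =
        X.tgt j (X.cmp j (X.cmp i (X.src j d) m) (X.cmp i (X.src j d) R)) ∧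
      X.cmp i d (X.cmp j L (X.cmp j m R)) =
        X.cmp j (X.cmp i d L) (X.cmp j (X.cmp i (X.src j d) m) (X.cmp i (X.src j d) R)) := by
  have u : ∀ x y : X.Cell, X.src j x = X.tgt j y → X.tgt i x = X.tgt i y := fun x y hxy => by
    rw [← X.tgt_src_lt i j x hij, hxy, X.tgt_tgt, min_eq_left hij.le]
  have s : ∀ x : X.Cell, X.src i (X.src j x) = X.src i x := fun x => by
    rw [X.src_src, min_eq_left hij.le]
  have a2 : X.src i (X.src j d) = X.tgt i m := by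
    rw [s, h, u _ _ h₂, X.tgt_cmp_le h₁ hij.le]
  have a3 : X.src i (X.src j d) = X.tgt i R := by rw [a2, u _ _ h₁]
  have e0 : X.src j (X.src j d) = X.src j d ∧ X.tgt j (X.src j d) = X.src j d :=
    ⟨by rw [X.src_src, min_self], X.tgt_src_ge j j d le_rfl⟩
  have a4 : X.src j (X.cmp i (X.src j d) m) = X.tgt j (X.cmp i (X.src j d) R) := by
    rw [X.src_cmp_gt a2 hij, X.tgt_cmp_gt a3 hij, h₁, e0.1, e0.2]
  refine ⟨a2, a3, a4, ?_, ?_⟩
  · rw [X.src_cmp_gt h hij, X.tgt_cmp_le a4 le_rfl, X.tgt_cmp_gt a2 hij, h₂,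
      X.tgt_cmp_le h₁ le_rfl, e0.2]
  have hd : X.src j d = X.tgt j (X.src j d) := (X.tgt_src_ge j j d le_rfl).symm
  conv_lhs => arg 3; rw [← X.cmp_unit_right (a := d) (b := X.src j d) (i := j) rfl]
  rw [X.interchange' hij hd h₂ h]
  congr 1
  have hd' : X.src j (X.src j d) = X.tgt j (X.src j d) := by rw [X.src_src, min_self, ← hd]
  conv_lhs => arg 3; rw [← X.cmp_unit_right (a := X.src j d) (b := X.src j d) (i := j)
    (by rw [X.src_src, min_self])]
  rw [X.interchange' hij hd' h₁ a2]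

end Vale.Agent.P213.OCat
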