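import Vale.Agent.P213.Free.Stage

/-!
# Extending a functor: the value of a whiskered atom
-/

open CategoryTheory

namespace Vale.Agent.P213.ADC

noncomputable section

variable {K : ADC}

theorem face_face_lt (c : Table K) {i j : ℕ} (h : i < j) (e e' : Bool) :
    (c.face j e').face i e = c.face i e :=
  face_congr (fun k s hk => by rw [Table.face_x, if_pos (by omega)])
    (by rw [Table.face_x, if_pos h])

theorem cmp_face_le {i j : ℕ} {a b : Table K} (h : a.face i false = b.face i true) (hj : j ≤ i) :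
    ((nu K).cmp i a b).face j false = b.face j false ∧
      ((nu K).cmp i a b).face j true = a.face j true :=
  ⟨(nu K).src_cmp_le h hj, (nu K).tgt_cmp_le h hj⟩

/-- The top level of a composite at `J` is the sum. -/
theorem cmp_top {J l : ℕ} {a b : Table K} (h : a.face J false = b.face J true) (hl : J < l)
    (s : Bool) : Table.x ((nu K).cmp J a b) l s = a.x l s + b.x l s := by
  rw [cmp_x h, if_neg (by omega), if_neg (by omega)]

theorem Le.eq_face {n : ℕ} {c : Table K} (hc : Le (n + 1) c) (h0 : c.x (n + 1) true = 0)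
    (e : Bool) : Le n c ∧ c.face n e = c := by
  have h : Le n c := fun l s hl => by
    rcases Nat.eq_or_lt_of_le (Nat.succ_le_of_lt hl) with rfl | hl'
    · rw [hc.top_eq s true, h0]
    · exact hc l s hl'
  exact ⟨h, h.face_eq le_rfl e⟩

/-- The data of an extension step. -/
structure Ext (D : Data K) (X : OCat) (k : ℕ) where
  F : K.PartialHom k X
  φ : K.B (k + 1) → X.Cell
  φ_dim : ∀ b, X.src (k + 1) (φ b) = φ b
  φ_bdry : ∀ b, X.src k (φ b) = F.map ⟨(D.atom b).face k false, le_face _ _ _⟩ ∧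
    X.tgt k (φ b) = F.map ⟨(D.atom b).face k true, le_face _ _ _⟩

namespace Ext

variable {D : Data K} {X : OCat} {k : ℕ} (E : Ext D X k)

/-- `F`, as a total function. -/
def fv (c : Table K) : X.Cell := E.F.map ⟨c.face k false, le_face _ _ _⟩

theorem fv_eq {c : Table K} (h : Le k c) : E.fv c = E.F.map ⟨c, h⟩ :=
  congrArg E.F.map (Subtype.ext (h.face_eq le_rfl false))

theorem fv_dim (c : Table K) : X.src k (E.fv c) = E.fv c := E.F.dim _

theorem fv_src {c : Table K} (h : Le k c) (i : ℕ) :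
    E.fv (c.face i false) = X.src i (E.fv c) := by
  rw [E.fv_eq h, E.fv_eq (h.face i false)]
  exact E.F.map_src i ⟨c, h⟩ _

theorem fv_tgt {c : Table K} (h : Le k c) (i : ℕ) :
    E.fv (c.face i true) = X.tgt i (E.fv c) := by
  rw [E.fv_eq h, E.fv_eq (h.face i true)]
  exact E.F.map_tgt i ⟨c, h⟩ _

theorem fv_cmp {a b : Table K} (ha : Le k a) (hb : Le k b) {i : ℕ}
    (h : a.face i false = b.face i true) :
    E.fv ((nu K).cmp i a b) = X.cmp i (E.fv a) (E.fv b) := by
  have h' : X.src i (E.fv a) = X.tgt i (E.fv b) := by rw [← E.fv_src ha, ← E.fv_tgt hb, h]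
  have e : (nu K).cmp i a b = Table.comp i a b h := (nu K).cmp_eq h
  rw [X.cmp_eq h', E.fv_eq (ha.cmp hb h)]
  have := E.F.map_comp i ⟨a, ha⟩ ⟨b, hb⟩ h (e ▸ ha.cmp hb h)
    (by rw [← E.fv_eq ha, ← E.fv_eq hb]; exact h')
  simp only [E.fv_eq ha, E.fv_eq hb]
  exact (congrArg E.F.map (Subtype.ext e)).trans this

/-- `v` is a possible value at `c`. -/
structure Rep (c : Table K) (v : X.Cell) : Prop where
  dim : X.src (k + 1) v = v
  src : ∀ i, i ≤ k → X.src i v = E.fv (c.face i false)
  tgt : ∀ i, i ≤ k → X.tgt i v = E.fv (c.face i true)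

variable {E}

theorem rep_fv {c : Table K} (h : Le k c) : E.Rep c (E.fv c) :=
  ⟨X.src_of_le (E.fv_dim c) k.le_succ, fun i _ => (E.fv_src h i).symm,
    fun i _ => (E.fv_tgt h i).symm⟩

theorem Rep.comp_ok {a b : Table K} {v w : X.Cell} (ha : E.Rep a v) (hb : E.Rep b w) {j : ℕ}
    (hj : j ≤ k) (h : a.face j false = b.face j true) : X.src j v = X.tgt j w := by
  rw [ha.src j hj, hb.tgt j hj, h]

theorem Rep.cmp {a b : Table K} {v w : X.Cell} (ha : E.Rep a v) (hb : E.Rep b w) {j : ℕ}
    (hj : j ≤ k) (h : a.face j false = b.face j true) :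
    E.Rep ((nu K).cmp j a b) (X.cmp j v w) := by
  have hok := ha.comp_ok hb hj h
  refine ⟨X.dim_cmp hok ha.dim hb.dim, fun i hi => ?_, fun i hi => ?_⟩
  · rcases le_or_gt i j with hij | hij
    · rw [X.src_cmp_le hok hij, hb.src i hi]
      exact congrArg E.fv ((nu K).src_cmp_le h hij).symm
    · rw [X.src_cmp_gt hok hij, ha.src i hi, hb.src i hi, ← E.fv_cmp ((le_face a i false).mono hi)
        ((le_face b i false).mono hi) (by rw [face_face_lt a hij, face_face_lt b hij, h])]
      exact congrArg E.fv ((nu K).src_cmp_gt h hij).symm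
  · rcases le_or_gt i j with hij | hij
    · rw [X.tgt_cmp_le hok hij, ha.tgt i hi]
      exact congrArg E.fv ((nu K).tgt_cmp_le h hij).symm
    · rw [X.tgt_cmp_gt hok hij, ha.tgt i hi, hb.tgt i hi, ← E.fv_cmp ((le_face a i true).mono hi)
        ((le_face b i true).mono hi) (by rw [face_face_lt a hij, face_face_lt b hij, h])]
      exact congrArg E.fv ((nu K).tgt_cmp_gt h hij).symm

theorem rep_atom (b : K.B (k + 1)) : E.Rep (D.atom b) (E.φ b) := by
  obtain ⟨hs, ht⟩ := E.φ_bdry b
  have hs' : X.src k (E.φ b) = E.fv ((D.atom b).face k false) := by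
    rw [hs, E.fv_eq (le_face _ _ _)]
  have ht' : X.tgt k (E.φ b) = E.fv ((D.atom b).face k true) := by
    rw [ht, E.fv_eq (le_face _ _ _)]
  refine ⟨E.φ_dim b, fun i hi => ?_, fun i hi => ?_⟩
  · rcases hi.eq_or_lt with rfl | hi
    · exact hs'
    · rw [← face_face_lt _ hi false false, E.fv_src (le_face _ _ _), ← hs', X.src_src,
        min_eq_left hi.le]
  · rcases hi.eq_or_lt with rfl | hi
    · exact ht'
    · rw [← face_face_lt _ hi true true, E.fv_tgt (le_face _ _ _), ← ht', X.tgt_tgt,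
        min_eq_left hi.le]

variable (E)

/-- The value of a whiskered atom of stage `j`. -/
def V (a : K.B (k + 1)) : ℕ → Table K → X.Cell
  | 0, _ => E.φ a
  | J + 1, c =>
    X.cmp J (E.fv (D.lPart a J c)) (X.cmp J (V a J (D.cPart a J c)) (E.fv (D.rPart a J c)))

variable {E}

theorem parts_le {a : K.B (k + 1)} {J : ℕ} {c : Table K} (h : D.Stg a (J + 1) c) (hJ : J < k) :
    Le k (D.lPart a J c) ∧ Le k (D.rPart a J c) :=
  ⟨(cut_x (h.l_ok (by omega))).2.2.2.mono hJ, (cut_x (h.r_ok (by omega))).2.2.2.mono hJ⟩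

theorem rep_V (a : K.B (k + 1)) :
    ∀ (j : ℕ) (c : Table K), j ≤ k → D.Stg a j c → E.Rep c (E.V a j c) := by
  intro j
  induction j with
  | zero => intro c _ h; rw [h.eq_atom k.succ_pos]; exact rep_atom a
  | succ J ih =>
    intro c hJ h
    obtain ⟨e₁, e₂⟩ := h.composable (by omega : J + 1 < k + 1)
    obtain ⟨hl, hr⟩ := parts_le h (by omega)
    have := (rep_fv (E := E) hl).cmp
      ((ih _ (by omega) (h.cPart_x (by omega)).2.2.2).cmp (rep_fv hr) (by omega) e₁) (by omega) e₂
    rwa [h.eq_cmp (by omega)] at this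

end Ext

/-- The parts of a composite `L ∘ (mid ∘ R)` with `R` before and `L` after the atom. -/
theorem Data.parts_unique (D : Data K) {n : ℕ} {a : K.B n} {J : ℕ} {L mid R : Table K}
    (hn : J + 1 < n) (hm : D.Stg a J mid) (hL : Le (J + 1) L) (hR : Le (J + 1) R)
    (h₁ : mid.face J false = R.face J true)
    (h₂ : L.face J false = ((nu K).cmp J mid R).face J true)
    (hLr : ∀ e, L.x (J + 1) true e ≠ 0 → D.r a < D.r e)
    (hRr : ∀ e, R.x (J + 1) true e ≠ 0 → D.r e ≤ D.r a) :
    D.Stg a (J + 1) ((nu K).cmp J L ((nu K).cmp J mid R)) ∧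
      D.lPart a J ((nu K).cmp J L ((nu K).cmp J mid R)) = L ∧
      D.cPart a J ((nu K).cmp J L ((nu K).cmp J mid R)) = mid ∧
      D.rPart a J ((nu K).cmp J L ((nu K).cmp J mid R)) = R := by
  classical
  set c : Table K := (nu K).cmp J L ((nu K).cmp J mid R)
  have cx : ∀ l s, c.x l s = if l < J then L.x l s else if l = J then
      (if s then L.x l true else R.x l false) else L.x l s + (mid.x l s + R.x l s) := by
    intro l s
    simp only [c, cmp_x h₂, cmp_x h₁]
    split_ifs <;> first | rfl | simp_all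
  have hc : D.Stg a (J + 1) c := fun l s hl => by
    rw [cx, if_neg (by omega), if_neg (by omega), hL l s hl, hR l s hl, zero_add, add_zero,
      hm l s (by omega)]
  have hsum : D.wv a (J + 1) c = L.x (J + 1) true + R.x (J + 1) true := by
    rw [Data.wv, cx, if_neg (by omega), if_neg (by omega), hm _ _ J.lt_succ_self]
    abel
  have hlo : D.lo a (J + 1) c = R.x (J + 1) true := by
    ext e
    rw [Data.lo, Finsupp.filter_apply, hsum, Finsupp.add_apply]
    by_cases he : D.r e ≤ D.r a
    · have : L.x (J + 1) true e = 0 := by_contra fun h => absurd he (not_le.2 (hLr e h))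
      simp [he, this]
    · have : R.x (J + 1) true e = 0 := by_contra fun h => he (hRr e h)
      simp [he, this]
  have hhi : D.hi a (J + 1) c = L.x (J + 1) true :=
    add_right_cancel (b := R.x (J + 1) true) (by rw [← hsum, ← D.lo_add_hi, hlo]; abel)
  obtain ⟨m1, m2⟩ := Table.composable h₁
  obtain ⟨l1, l2⟩ := Table.composable h₂
  have l1' : ∀ l s, l < J → L.x l s = mid.x l s := fun l s hl => by
    rw [l1 l s hl, cmp_x h₁, if_pos hl]
  have l2' : L.x J false = mid.x J true := by
    rw [l2, cmp_x h₁, if_neg (lt_irrefl _), if_pos rfl]; rfl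
  obtain ⟨c1, c2, c3, c4⟩ := hc.cPart_x hn
  obtain ⟨r1, r2, r3, r4⟩ := cut_x (hc.r_ok hn)
  obtain ⟨p1, p2, p3, p4⟩ := cut_x (hc.l_ok hn)
  have cJ : c.x J false = R.x J false ∧ c.x J true = L.x J true := by simp [cx]
  have eR : c.x J false + K.d J (D.lo a (J + 1) c) = R.x J true := by
    rw [cJ.1, hlo, R.bdry]; abel
  have eL : c.x J true - K.d J (D.hi a (J + 1) c) = L.x J false := by
    rw [cJ.2, hhi, L.bdry]; abel
  refine ⟨hc, Table.ext (funext fun l => funext fun s => ?_),
    Table.ext (funext fun l => funext fun s => ?_), Table.ext (funext fun l => funext fun s => ?_)⟩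
  · rcases lt_trichotomy l J with hl | rfl | hl
    · rw [Data.lPart, p1 l s hl, cx, if_pos hl]
    · rw [Data.lPart, p2]; cases s
      · exact eL
      · exact cJ.2
    · rcases Nat.eq_or_lt_of_le (Nat.succ_le_of_lt hl) with rfl | hl'
      · rw [Data.lPart, p3, hhi, hL.top_eq s true]
      · rw [Data.lPart, p4 l s hl', hL l s hl']
  · rcases lt_trichotomy l J with hl | rfl | hl
    · rw [c1 l s hl, cx, if_pos hl, l1' l s hl]
    · cases s
      · rw [c3, eR, m2]
      · rw [c2, eL, l2']
    · rw [c4 l s hl, hm l s hl]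
  · rcases lt_trichotomy l J with hl | rfl | hl
    · rw [Data.rPart, r1 l s hl, cx, if_pos hl, l1' l s hl, m1 l s hl]
    · rw [Data.rPart, r2]; cases s
      · exact cJ.1
      · exact eR
    · rcases Nat.eq_or_lt_of_le (Nat.succ_le_of_lt hl) with rfl | hl'
      · rw [Data.rPart, r3, hlo, hR.top_eq s true]
      · rw [Data.rPart, r4 l s hl', hR l s hl']

/-- A cell of dimension at most `J + 1` splits at any threshold. -/
theorem Data.split_rank (D : Data K) {J : ℕ} {c : Table K} (hc : Le (J + 1) c) (θ : ℤ) :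
    ∃ P Q : Table K, Le (J + 1) P ∧ Le (J + 1) Q ∧ P.face J false = Q.face J true ∧
      (nu K).cmp J P Q = c ∧ (∀ e, P.x (J + 1) true e ≠ 0 → θ < D.r e) ∧
      ∀ e, Q.x (J + 1) true e ≠ 0 → D.r e ≤ θ := by
  classical
  set x := c.x (J + 1) true
  set p := x.filter fun e => D.r e ≤ θ
  have hx : 0 ≤ x := c.nonneg _ _
  have hp : 0 ≤ p := fun e => by
    simp only [p, Finsupp.filter_apply]; split_ifs <;> first | exact hx e | exact le_rfl
  have hq : x - p = x.filter fun e => ¬D.r e ≤ θ :=
    sub_eq_iff_eq_add.2 ((add_comm _ _).trans (Finsupp.filter_add_filter_not x _)).symm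
  have hpx : p ≤ x := fun e => by
    simp only [p, Finsupp.filter_apply]; split_ifs <;> first | exact le_rfl | exact hx e
  have hP : ∀ e, p e ≠ 0 → D.r e ≤ θ := fun e he => by
    by_contra h; exact he (Finsupp.filter_apply_neg _ _ h)
  have hQ : ∀ e, (x - p) e ≠ 0 → θ < D.r e := fun e he => by
    rw [hq] at he
    by_contra h; exact he (Finsupp.filter_apply_neg _ _ fun h' => h' (not_lt.1 h))
  have hsep : D.Sep p (x - p) := fun e e' he he' => (hP e he).trans (hQ e' he').le
  obtain ⟨e₁, e₂⟩ := D.cut_cmp hc hp hpx hsep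
  obtain ⟨o₁, o₂⟩ := D.cut_ok hp hpx hsep
  refine ⟨sndCut c J p, fstCut c J p, (cut_x o₂).2.2.2, (cut_x o₁).2.2.2, e₁, e₂,
    fun e he => hQ e ?_, fun e he => hP e ?_⟩
  · rwa [sndCut, (cut_x o₂).2.2.1] at he
  · rwa [fstCut, (cut_x o₁).2.2.1] at he

end

end Vale.Agent.P213.ADC
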