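import Vale.Agent.P213.Free.Extend.Algebra
import Vale.Agent.P213.Free.Extend.Value

/-!
# Moving a whisker past an atom
-/

open CategoryTheory

namespace Vale.Agent.P213.ADC.Ext

noncomputable section

variable {K : ADC} {D : Data K} {X : OCat} {k : ℕ} (E : Ext D X k)

/-- The value does not depend on how the whiskers are chosen. -/
def MGoal (a : K.B (k + 1)) (J : ℕ) : Prop :=
  ∀ L mid R : Table K, D.Stg a J mid → Le (J + 1) L → Le (J + 1) R →
    mid.face J false = R.face J true → L.face J false = ((nu K).cmp J mid R).face J true →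
    D.Stg a (J + 1) ((nu K).cmp J L ((nu K).cmp J mid R)) ∧
      E.V a (J + 1) ((nu K).cmp J L ((nu K).cmp J mid R)) =
        X.cmp J (E.fv L) (X.cmp J (E.V a J mid) (E.fv R))

/-- Values on cells with top level `p` in degree `J + 2`, compatible with whiskering at `J`. -/
structure Good (J : ℕ) (p : K.B (J + 2) →₀ ℤ) (val : Table K → X.Cell) : Prop where
  rep : ∀ S, Le (J + 2) S → S.x (J + 2) true = p → E.Rep S (val S)
  left : ∀ T S, Le (J + 1) T → Le (J + 2) S → S.x (J + 2) true = p →
    T.face J false = S.face J true → val ((nu K).cmp J T S) = X.cmp J (E.fv T) (val S)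
  right : ∀ S T, Le (J + 1) T → Le (J + 2) S → S.x (J + 2) true = p →
    S.face J false = T.face J true → val ((nu K).cmp J S T) = X.cmp J (val S) (E.fv T)

theorem good_fv {J : ℕ} (hJ : J + 2 ≤ k) (p : K.B (J + 2) →₀ ℤ) : E.Good J p E.fv where
  rep _ hS _ := rep_fv (hS.mono hJ)
  left _ _ hT hS _ h := E.fv_cmp (hT.mono (by omega)) (hS.mono hJ) h
  right _ _ hT hS _ h := E.fv_cmp (hS.mono hJ) (hT.mono (by omega)) h

variable {E}

/-- A whisker made of generators coming before the atom moves past it downwards. -/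
theorem swap_below {a : K.B (k + 1)} {J : ℕ} (hJ : J < k) (hM : E.MGoal a J) {mid U : Table K}
    (hm : D.Stg a (J + 1) mid) (hU : Le (J + 2) U)
    (h : U.face (J + 1) false = mid.face (J + 1) true)
    (hr : ∀ e, U.x (J + 2) true e ≠ 0 → D.r e ≤ D.r a) {val : Table K → X.Cell}
    (hval : E.Good J (U.x (J + 2) true) val) :
    ∃ mid' U' : Table K, D.Stg a (J + 1) mid' ∧ Le (J + 2) U' ∧
      U'.x (J + 2) true = U.x (J + 2) true ∧
      mid'.face (J + 1) false = U'.face (J + 1) true ∧
      (nu K).cmp (J + 1) U mid = (nu K).cmp (J + 1) mid' U' ∧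
      X.cmp (J + 1) (val U) (E.V a (J + 1) mid) =
        X.cmp (J + 1) (E.V a (J + 1) mid') (val U') := by
  have hn : J + 1 < k + 1 := by omega
  obtain ⟨e₁, e₂⟩ := hm.composable hn
  obtain ⟨c1, c2, c3, c4⟩ := hm.cPart_x hn
  obtain ⟨r1, r2, r3, r4⟩ := cut_x (hm.r_ok hn)
  obtain ⟨l1, l2, l3, l4⟩ := cut_x (hm.l_ok hn)
  set L : Table K := D.lPart a J mid
  set m : Table K := D.cPart a J mid
  set S : Table K := D.rPart a J mid
  have hLm : L.face J false = m.face J true := e₂.trans ((nu K).tgt_cmp_le e₁ le_rfl)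
  set T : Table K := (nu K).cmp J L m with hTdef
  have hTS : T.face J false = S.face J true := ((nu K).src_cmp_le hLm le_rfl).trans e₁
  have hmid : (nu K).cmp J T S = mid := ((nu K).cmp_assoc hLm e₁).trans (hm.eq_cmp hn)
  have hLk : Le k L := (parts_le hm hJ).1
  have hSk : Le k S := (parts_le hm hJ).2
  -- levels
  set p := U.x (J + 2) true
  set w := D.lo a (J + 1) mid
  have hp : 0 ≤ p := U.nonneg _ _
  have hUlev : U.x (J + 1) false = mid.x (J + 1) true ∧
      ∀ l s, l < J + 1 → U.x l s = mid.x l s :=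
    ⟨(Table.composable h).2, (Table.composable h).1⟩
  have hd : K.d (J + 1) p = U.x (J + 1) true - U.x (J + 1) false := U.bdry (J + 1) true
  have hw : 0 ≤ w + K.d (J + 1) p := by
    intro b
    have w0 : 0 ≤ w b := hm.lo_nonneg hn b
    simp only [Finsupp.coe_zero, Pi.zero_apply, Finsupp.add_apply]
    by_cases hneg : K.d (J + 1) p b < 0
    · obtain ⟨e, he, heb⟩ := exists_of_d_neg hp hneg
      have hb : D.r b < D.r a := ((D.r_bdry _ e b).1 heb).trans_le (hr e he)
      have hh : D.hi a (J + 1) mid b = 0 := by_contra fun h' => absurd (D.hi_ne_zero h') (by omega)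
      have ha : (D.atom a).x (J + 1) true b = 0 :=
        by_contra fun h' => absurd (D.rank_tgt a hn h') (by omega)
      have h1 : U.x (J + 1) false b = w b := by
        rw [hUlev.1, hm.tgt_level]; simp [hh, ha, w]
      have h2 := congrArg (fun f => f b) hd
      have h3 : 0 ≤ U.x (J + 1) true b := U.nonneg _ _ b
      simp only [Finsupp.sub_apply] at h2
      omega
    · omega
  have hok : CutOK S (J + 1) w (w + K.d (J + 1) p) p :=
    ⟨hm.lo_nonneg hn, hw, hp, by abel, by rw [show S.x (J + 1) false = w from r3 false]; exact par_refl _⟩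
  obtain ⟨u1, u2, u3, u4⟩ := cut_x hok
  set W : Table K := cut S (J + 1) w (w + K.d (J + 1) p) p
  have hWS : W.face (J + 1) false = S :=
    (face_congr (fun l s hl => u1 l s hl) ((u2 false).trans (r3 false).symm)).trans
      (r4.face_eq le_rfl false)
  have hW : (nu K).src (J + 1) W = S := hWS
  obtain ⟨a1', a2, a3', a4, a5⟩ := (nu K).swap_low (T := T) J.lt_succ_self hTS hW
  set TE : Table K := T.face (J + 1) true
  have a1 : TE.face J false = W.face J true := a1'
  have a3 : (T.face (J + 1) false).face J false = W.face J true := a3'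
  have hUeq : (nu K).cmp J TE W = U := by
    refine Table.ext (funext fun l => funext fun s => ?_)
    rw [cmp_x a1]
    have hTx : ∀ l s, T.x l s = if l < J then L.x l s else if l = J then
        (if s then L.x l true else m.x l false) else L.x l s + m.x l s := fun l s => cmp_x hLm l s
    rcases lt_trichotomy l J with hl | rfl | hl
    · rw [if_pos hl, Table.face_x, if_pos (by omega), hTx, if_pos hl, hUlev.2 l s (by omega)]
      exact l1 l s hl
    · simp only [Table.face_x, hTx, u1 _ _ l.lt_succ_self, hUlev.2 l s l.lt_succ_self,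
        lt_irrefl, if_false, if_true, l.lt_succ_self, TE]
      cases s
      · exact r2 false
      · exact l2 true
    · rw [if_neg (by omega), if_neg hl.ne']
      rcases Nat.eq_or_lt_of_le (Nat.succ_le_of_lt hl) with rfl | hl'
      · rw [Table.face_x, if_neg (lt_irrefl _), if_pos rfl, hTx, if_neg (by omega),
          if_neg (by omega), u2, show L.x (J + 1) true = D.hi a (J + 1) mid from l3 true,
          c4 _ _ hl]
        cases s
        · rw [hUlev.1, hm.tgt_level]
          show D.hi a (J + 1) mid + (D.atom a).x (J + 1) true + w = _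
          abel
        · show D.hi a (J + 1) mid + (D.atom a).x (J + 1) true + (w + K.d (J + 1) p) = _
          rw [hd, hUlev.1, hm.tgt_level]
          abel
      · rw [Table.face_x, if_neg (by omega), if_neg (by omega), zero_add]
        rcases Nat.eq_or_lt_of_le (Nat.succ_le_of_lt hl') with rfl | hl''
        · rw [u3]; exact hU.top_eq true s
        · rw [u4 l s hl'', hU l s hl'']
  set S' : Table K := W.face (J + 1) true
  set TS : Table K := T.face (J + 1) false
  have hS'1 : Le (J + 1) S' := le_face _ _ _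
  have hmS' : m.face J false = S'.face J true := ((nu K).src_cmp_le hLm le_rfl).symm.trans a2
  have hLmS' : L.face J false = ((nu K).cmp J m S').face J true :=
    hLm.trans ((nu K).tgt_cmp_le hmS' le_rfl).symm
  obtain ⟨hst, hV⟩ := hM L m S' c4 l4 hS'1 hmS' hLmS'
  have hassoc : (nu K).cmp J T S' = (nu K).cmp J L ((nu K).cmp J m S') :=
    (nu K).cmp_assoc hLm hmS'
  have hTS' : Le (J + 1) TS := le_face _ _ _
  refine ⟨(nu K).cmp J T S', (nu K).cmp J TS W, hassoc ▸ hst, (hTS'.mono (by omega)).cmp u4 a3,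
    ?_, a4, ?_, ?_⟩
  · rw [cmp_top a3 (by omega), hTS' _ _ (by omega), zero_add, u3]
  · rw [← hUeq, ← hmid]; exact a5
  · have hrL : E.Rep L (E.fv L) := rep_fv hLk
    have hrm : E.Rep m (E.V a J m) := rep_V a J m hJ.le c4
    have hrT := hrL.cmp hrm hJ.le hLm
    have hWtop : W.x (J + 2) true = p := u3 true
    have hrW : E.Rep W (val W) := hval.rep W u4 hWtop
    have hVmid : E.V a (J + 1) mid =
        X.cmp J (X.cmp J (E.fv L) (E.V a J m)) (E.fv S) :=
      (X.cmp_assoc (hrL.comp_ok hrm hJ.le hLm) (hrm.comp_ok (rep_fv hSk) hJ.le e₁)).symm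
    have hV' : E.V a (J + 1) ((nu K).cmp J T S') =
        X.cmp J (X.cmp J (E.fv L) (E.V a J m)) (E.fv S') := by
      rw [hassoc, hV]
      exact (X.cmp_assoc (hrL.comp_ok hrm hJ.le hLm)
        (hrm.comp_ok (rep_fv (hS'1.mono hJ)) hJ.le hmS')).symm
    have e1 : E.fv TE = X.tgt (J + 1) (X.cmp J (E.fv L) (E.V a J m)) := (hrT.tgt _ hJ).symm
    have e2 : E.fv TS = X.src (J + 1) (X.cmp J (E.fv L) (E.V a J m)) := (hrT.src _ hJ).symm
    have e3 : E.fv S' = X.tgt (J + 1) (val W) := (hrW.tgt _ hJ).symm
    have e4 : X.src (J + 1) (val W) = E.fv S := by rw [hrW.src _ hJ, hWS]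
    rw [← hUeq, hval.left _ _ (le_face _ _ _) u4 hWtop a1,
      hval.left _ _ hTS' u4 hWtop a3, hV', hVmid, e1, e2, e3]
    exact (X.swap_low J.lt_succ_self (hrT.comp_ok (rep_fv hSk) hJ.le hTS) e4).2.2.2.2

/-- A whisker made of generators coming after the atom moves past it upwards. -/
theorem swap_above {a : K.B (k + 1)} {J : ℕ} (hJ : J < k) (hM : E.MGoal a J) {mid U : Table K}
    (hm : D.Stg a (J + 1) mid) (hU : Le (J + 2) U)
    (h : mid.face (J + 1) false = U.face (J + 1) true)
    (hr : ∀ e, U.x (J + 2) true e ≠ 0 → D.r a < D.r e) {val : Table K → X.Cell}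
    (hval : E.Good J (U.x (J + 2) true) val) :
    ∃ mid' U' : Table K, D.Stg a (J + 1) mid' ∧ Le (J + 2) U' ∧
      U'.x (J + 2) true = U.x (J + 2) true ∧
      U'.face (J + 1) false = mid'.face (J + 1) true ∧
      (nu K).cmp (J + 1) mid U = (nu K).cmp (J + 1) U' mid' ∧
      X.cmp (J + 1) (E.V a (J + 1) mid) (val U) =
        X.cmp (J + 1) (val U') (E.V a (J + 1) mid') := by
  have hn : J + 1 < k + 1 := by omega
  obtain ⟨e₁, e₂⟩ := hm.composable hn
  obtain ⟨c1, c2, c3, c4⟩ := hm.cPart_x hn
  obtain ⟨r1, r2, r3, r4⟩ := cut_x (hm.r_ok hn)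
  obtain ⟨l1, l2, l3, l4⟩ := cut_x (hm.l_ok hn)
  set S : Table K := D.lPart a J mid
  set m : Table K := D.cPart a J mid
  set R : Table K := D.rPart a J mid
  set T : Table K := (nu K).cmp J m R with hTdef
  have hST : S.face J false = T.face J true := e₂
  have hmid : (nu K).cmp J S T = mid := hm.eq_cmp hn
  have hSk : Le k S := (parts_le hm hJ).1
  have hRk : Le k R := (parts_le hm hJ).2
  -- levels
  set p := U.x (J + 2) true
  set w := D.hi a (J + 1) mid
  have hp : 0 ≤ p := U.nonneg _ _
  have hUlev : U.x (J + 1) true = mid.x (J + 1) false ∧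
      ∀ l s, l < J + 1 → U.x l s = mid.x l s :=
    ⟨(Table.composable h).2.symm, fun l s hl => ((Table.composable h).1 l s hl).symm⟩
  have hd : K.d (J + 1) p = U.x (J + 1) true - U.x (J + 1) false := U.bdry (J + 1) true
  have hw : 0 ≤ w - K.d (J + 1) p := by
    intro b
    have w0 : 0 ≤ w b := hm.hi_nonneg hn b
    simp only [Finsupp.coe_zero, Pi.zero_apply, Finsupp.sub_apply]
    by_cases hpos : 0 < K.d (J + 1) p b
    · obtain ⟨e, he, heb⟩ := exists_of_d_pos hp hpos
      have hb : D.r a < D.r b := (hr e he).trans ((D.r_bdry _ e b).2 heb)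
      have hh : D.lo a (J + 1) mid b = 0 := by_contra fun h' => absurd (D.lo_ne_zero h') (by omega)
      have ha : (D.atom a).x (J + 1) false b = 0 :=
        by_contra fun h' => absurd (D.rank_src a hn h') (by omega)
      have h1 : U.x (J + 1) true b = w b := by
        rw [hUlev.1, hm.src_level]; simp [hh, ha, w]
      have h2 := congrArg (fun f => f b) hd
      have h3 : 0 ≤ U.x (J + 1) false b := U.nonneg _ _ b
      simp only [Finsupp.sub_apply] at h2
      omega
    · omega
  have hok : CutOK S (J + 1) (w - K.d (J + 1) p) w p :=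
    ⟨hw, hm.hi_nonneg hn, hp, by abel, by
      rw [show S.x (J + 1) false = w from l3 false, sub_eq_add_neg, ← map_neg]
      exact (par_refl _).add_d _⟩
  obtain ⟨u1, u2, u3, u4⟩ := cut_x hok
  set W : Table K := cut S (J + 1) (w - K.d (J + 1) p) w p
  have hWS : W.face (J + 1) true = S :=
    (face_congr (fun l s hl => u1 l s hl) ((u2 true).trans (l3 true).symm)).trans
      (l4.face_eq le_rfl true)
  have hW : (nu K).tgt (J + 1) W = S := hWS
  obtain ⟨a1', a2', a3, a4, a5⟩ := (nu K).swap_high (T := T) J.lt_succ_self hST hW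
  set TE : Table K := T.face (J + 1) false
  have a1 : W.face J false = TE.face J true := a1'
  have a2 : W.face J false = (T.face (J + 1) true).face J true := a2'
  have hUeq : (nu K).cmp J W TE = U := by
    refine Table.ext (funext fun l => funext fun s => ?_)
    rw [cmp_x a1]
    have hTx : ∀ l s, T.x l s = if l < J then m.x l s else if l = J then
        (if s then m.x l true else R.x l false) else m.x l s + R.x l s := fun l s => cmp_x e₁ l s
    rcases lt_trichotomy l J with hl | rfl | hl
    · rw [if_pos hl, u1 _ _ (by omega), hUlev.2 l s (by omega)]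
      exact l1 l s hl
    · simp only [Table.face_x, hTx, u1 _ _ l.lt_succ_self, hUlev.2 l s l.lt_succ_self,
        lt_irrefl, if_false, if_true, l.lt_succ_self, TE]
      cases s
      · exact r2 false
      · exact l2 true
    · rw [if_neg (by omega), if_neg hl.ne']
      rcases Nat.eq_or_lt_of_le (Nat.succ_le_of_lt hl) with rfl | hl'
      · rw [Table.face_x, if_neg (lt_irrefl _), if_pos rfl, hTx, if_neg (by omega),
          if_neg (by omega), u2, show R.x (J + 1) false = D.lo a (J + 1) mid from r3 false,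
          c4 _ _ hl]
        cases s
        · show (w - K.d (J + 1) p) + ((D.atom a).x (J + 1) false + D.lo a (J + 1) mid) = _
          rw [hd, hUlev.1, hm.src_level]
          abel
        · rw [hUlev.1, hm.src_level]
          show w + ((D.atom a).x (J + 1) false + D.lo a (J + 1) mid) = _
          abel
      · rw [Table.face_x, if_neg (by omega), if_neg (by omega), add_zero]
        rcases Nat.eq_or_lt_of_le (Nat.succ_le_of_lt hl') with rfl | hl''
        · rw [u3]; exact hU.top_eq true s
        · rw [u4 l s hl'', hU l s hl'']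
  set S' : Table K := W.face (J + 1) false
  set TT : Table K := T.face (J + 1) true
  have hS'1 : Le (J + 1) S' := le_face _ _ _
  obtain ⟨hst, hV⟩ := hM S' m R c4 hS'1 r4 e₁ a3
  have hTT : Le (J + 1) TT := le_face _ _ _
  refine ⟨(nu K).cmp J S' T, (nu K).cmp J W TT, hst, u4.cmp (hTT.mono (by omega)) a2,
    ?_, a4, ?_, ?_⟩
  · rw [cmp_top a2 (by omega), hTT _ _ (by omega), add_zero, u3]
  · rw [← hUeq, ← hmid]; exact a5
  · have hrm : E.Rep m (E.V a J m) := rep_V a J m hJ.le c4
    have hrT := hrm.cmp (rep_fv hRk) hJ.le e₁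
    have hWtop : W.x (J + 2) true = p := u3 true
    have hrW : E.Rep W (val W) := hval.rep W u4 hWtop
    have hVmid : E.V a (J + 1) mid = X.cmp J (E.fv S) (X.cmp J (E.V a J m) (E.fv R)) := rfl
    have e1 : E.fv TE = X.src (J + 1) (X.cmp J (E.V a J m) (E.fv R)) := (hrT.src _ hJ).symm
    have e2 : E.fv TT = X.tgt (J + 1) (X.cmp J (E.V a J m) (E.fv R)) := (hrT.tgt _ hJ).symm
    have e3 : E.fv S' = X.src (J + 1) (val W) := (hrW.src _ hJ).symm
    have e4 : X.tgt (J + 1) (val W) = E.fv S := by rw [hrW.tgt _ hJ, hWS]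
    rw [← hUeq, hval.right _ _ (le_face _ _ _) u4 hWtop a1,
      hval.right _ _ hTT u4 hWtop a2, hV, hVmid, e1, e2, e3]
    exact (X.swap_high J.lt_succ_self ((rep_fv hSk).comp_ok hrT hJ.le hST) e4).2.2.2.2

end

end Vale.Agent.P213.ADC.Ext
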