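import Vale.Agent.P213.Free.Extend.Swap

/-!
# The value of a whiskered atom is compatible with whiskering
-/

open CategoryTheory

namespace Vale.Agent.P213.ADC

noncomputable section

variable {K : ADC}

/-- An edge starts at its source. -/
theorem Data.edge_src (D : Data K) (e : K.B 1) : ∃ b, K.InBdry false e b := by
  obtain ⟨b, hb⟩ := D.level_zero (D.atom e) false
  refine ⟨b, ?_⟩
  have hmin := D.atom_min e (l := 0) one_pos b
  have hd := congrArg (fun f => f b) ((D.atom e).bdry 0 true)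
  simp only [(D.isAtom 1 e).top true, Finsupp.sub_apply] at hd
  have hb1 : (D.atom e).x 0 false b = 1 := by rw [hb, gen, Finsupp.single_eq_same]
  show K.d 0 (K.gen e) b < 0
  have : 0 ≤ (D.atom e).x 0 true b := (D.atom e).nonneg _ _ b
  omega

/-- An edge ends at its target. -/
theorem Data.edge_tgt (D : Data K) (e : K.B 1) : ∃ b, K.InBdry true e b := by
  obtain ⟨b, hb⟩ := D.level_zero (D.atom e) true
  refine ⟨b, ?_⟩
  have hmin := D.atom_min e (l := 0) one_pos b
  have hd := congrArg (fun f => f b) ((D.atom e).bdry 0 true)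
  simp only [(D.isAtom 1 e).top true, Finsupp.sub_apply] at hd
  have hb1 : (D.atom e).x 0 true b = 1 := by rw [hb, gen, Finsupp.single_eq_same]
  show 0 < K.d 0 (K.gen e) b
  have : 0 ≤ (D.atom e).x 0 false b := (D.atom e).nonneg _ _ b
  omega

/-- Nothing earlier than `a` can follow `a` at level `0`. -/
theorem Data.below_zero (D : Data K) {n : ℕ} (hn : 0 < n) (a : K.B n) {c : Table K}
    (hs : c.x 0 false = (D.atom a).x 0 true)
    (hr : ∀ e, c.x 1 true e ≠ 0 → D.r e ≤ D.r a) : c.x 1 true = 0 := by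
  by_contra hne
  obtain ⟨e, he, hmin⟩ := D.exists_min hne
  obtain ⟨b, hb⟩ := D.edge_src e
  have hbe : D.r b < D.r e := (D.r_bdry 0 e b).1 hb
  have hneg : K.d 0 (c.x 1 true) b < 0 := by
    rw [d_apply]
    refine Finset.sum_neg' (fun x hx => ?_) ⟨e, Finsupp.mem_support_iff.2 he, ?_⟩
    · refine mul_nonpos_of_nonneg_of_nonpos (c.nonneg 1 true x) (not_lt.1 fun hpos => ?_)
      have := (D.r_bdry 0 x b).2 (by simp only [InBdry, if_true]; exact hpos)
      have := hmin x (Finsupp.mem_support_iff.1 hx)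
      omega
    · refine mul_neg_of_pos_of_neg ?_ hb
      have : 0 ≤ c.x 1 true e := c.nonneg _ _ e
      omega
  have hd' : K.d 0 (c.x 1 true) = c.x 0 true - c.x 0 false := c.bdry 0 true
  have hd := congrArg (fun f => f b) hd'
  simp only [Finsupp.sub_apply] at hd
  have h0 : 0 ≤ c.x 0 true b := c.nonneg _ _ b
  have hne' : c.x 0 false b ≠ 0 := by
    intro h0'
    omega
  rw [hs] at hne'
  have := D.rank_tgt a hn hne'
  have := hr e he
  omega

/-- Nothing later than `a` can precede `a` at level `0`. -/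
theorem Data.above_zero (D : Data K) {n : ℕ} (hn : 0 < n) (a : K.B n) {c : Table K}
    (ht : c.x 0 true = (D.atom a).x 0 false)
    (hr : ∀ e, c.x 1 true e ≠ 0 → D.r a < D.r e) : c.x 1 true = 0 := by
  by_contra hne
  obtain ⟨e, he', hmax⟩ :=
    (c.x 1 true).support.exists_max_image D.r (Finsupp.support_nonempty_iff.2 hne)
  have he := Finsupp.mem_support_iff.1 he'
  obtain ⟨b, hb⟩ := D.edge_tgt e
  have hbe : D.r e < D.r b := (D.r_bdry 0 e b).2 hb
  have hpos : 0 < K.d 0 (c.x 1 true) b := by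
    rw [d_apply]
    refine Finset.sum_pos' (fun x hx => ?_) ⟨e, he', ?_⟩
    · refine mul_nonneg (c.nonneg 1 true x) (not_lt.1 fun hneg => ?_)
      have := (D.r_bdry 0 x b).1 (by simp only [InBdry, Bool.false_eq_true, if_false]; exact hneg)
      have := hmax x hx
      omega
    · refine mul_pos ?_ hb
      have : 0 ≤ c.x 1 true e := c.nonneg _ _ e
      omega
  have hd' : K.d 0 (c.x 1 true) = c.x 0 true - c.x 0 false := c.bdry 0 true
  have hd := congrArg (fun f => f b) hd'
  simp only [Finsupp.sub_apply] at hd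
  have h0 : 0 ≤ c.x 0 false b := c.nonneg _ _ b
  have hne' : c.x 0 true b ≠ 0 := by
    intro h0'
    omega
  rw [ht] at hne'
  have := D.rank_src a hn hne'
  have := hr e he
  omega

namespace Ext

variable {D : Data K} {X : OCat} {k : ℕ} {E : Ext D X k}

theorem cmp_unit_left' {j : ℕ} {a b : Table K} (h : b.face j true = a) :
    (nu K).cmp j a b = b := (nu K).cmp_unit_left h

theorem cmp_unit_right' {j : ℕ} {a b : Table K} (h : a.face j false = b) :
    (nu K).cmp j a b = a := (nu K).cmp_unit_right h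

theorem low_swap {a : K.B (k + 1)} {j : ℕ} (hj : j < k) (hM : ∀ J, J < j → E.MGoal a J)
    {mid U : Table K} (hm : D.Stg a j mid) (hU : Le (j + 1) U)
    (h : U.face j false = mid.face j true)
    (hr : ∀ e, U.x (j + 1) true e ≠ 0 → D.r e ≤ D.r a) :
    ∃ mid' U' : Table K, D.Stg a j mid' ∧ Le (j + 1) U' ∧
      (∀ e, U'.x (j + 1) true e ≠ 0 → D.r e ≤ D.r a) ∧
      mid'.face j false = U'.face j true ∧ (nu K).cmp j U mid = (nu K).cmp j mid' U' ∧
      X.cmp j (E.fv U) (E.V a j mid) = X.cmp j (E.V a j mid') (E.fv U') := by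
  rcases j with _ | J
  · have hmid := hm.eq_atom k.succ_pos
    have hs : U.x 0 false = (D.atom a).x 0 true := by rw [← hmid]; exact (Table.composable h).2
    obtain ⟨-, hU0⟩ := hU.eq_face (D.below_zero k.succ_pos a hs hr) false
    have hUf : U = mid.face 0 true := hU0.symm.trans h
    have hsrc : Le 0 (mid.face 0 false) := le_face _ _ _
    have hrep : E.Rep mid (E.V a 0 mid) := rep_V a 0 mid (Nat.zero_le k) hm
    refine ⟨mid, mid.face 0 false, hm, hsrc.mono (Nat.zero_le _),
      fun e he => absurd (by rw [hsrc (0 + 1) _ one_pos]; rfl) he, (hsrc.face_eq le_rfl true).symm,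
      ?_, ?_⟩
    · rw [cmp_unit_left' hUf.symm, cmp_unit_right' rfl]
    · rw [X.cmp_unit_left (by rw [hrep.tgt 0 k.zero_le, hUf]),
        X.cmp_unit_right (hrep.src 0 k.zero_le)]
  · obtain ⟨mid', U', h1, h2, h3, h4, h5, h6⟩ :=
      swap_below (by omega) (hM J J.lt_succ_self) hm hU h hr (E.good_fv (by omega) _)
    exact ⟨mid', U', h1, h2, fun e he => hr e (h3 ▸ he), h4, h5, h6⟩

theorem high_swap {a : K.B (k + 1)} {j : ℕ} (hj : j < k) (hM : ∀ J, J < j → E.MGoal a J)
    {mid U : Table K} (hm : D.Stg a j mid) (hU : Le (j + 1) U)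
    (h : mid.face j false = U.face j true)
    (hr : ∀ e, U.x (j + 1) true e ≠ 0 → D.r a < D.r e) :
    ∃ mid' U' : Table K, D.Stg a j mid' ∧ Le (j + 1) U' ∧
      (∀ e, U'.x (j + 1) true e ≠ 0 → D.r a < D.r e) ∧
      U'.face j false = mid'.face j true ∧ (nu K).cmp j mid U = (nu K).cmp j U' mid' ∧
      X.cmp j (E.V a j mid) (E.fv U) = X.cmp j (E.fv U') (E.V a j mid') := by
  rcases j with _ | J
  · have hmid := hm.eq_atom k.succ_pos
    have ht : U.x 0 true = (D.atom a).x 0 false := by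
      rw [← hmid]; exact (Table.composable h).2.symm
    obtain ⟨-, hU0⟩ := hU.eq_face (D.above_zero k.succ_pos a ht hr) true
    have hUf : U = mid.face 0 false := hU0.symm.trans h.symm
    have htgt : Le 0 (mid.face 0 true) := le_face _ _ _
    have hrep : E.Rep mid (E.V a 0 mid) := rep_V a 0 mid (Nat.zero_le k) hm
    refine ⟨mid, mid.face 0 true, hm, htgt.mono (Nat.zero_le _),
      fun e he => absurd (by rw [htgt (0 + 1) _ one_pos]; rfl) he, htgt.face_eq le_rfl false,
      ?_, ?_⟩
    · rw [cmp_unit_left' rfl, cmp_unit_right' hUf.symm]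
    · rw [X.cmp_unit_right (by rw [hrep.src 0 k.zero_le, hUf]),
        X.cmp_unit_left (hrep.tgt 0 k.zero_le)]
  · obtain ⟨mid', U', h1, h2, h3, h4, h5, h6⟩ :=
      swap_above (by omega) (hM J J.lt_succ_self) hm hU h hr (E.good_fv (by omega) _)
    exact ⟨mid', U', h1, h2, fun e he => hr e (h3 ▸ he), h4, h5, h6⟩

theorem mGoal (a : K.B (k + 1)) : ∀ J, J < k → E.MGoal a J := by
  intro J
  induction J using Nat.strong_induction_on with
  | _ J ih =>
    intro hJ L mid R hm hL hR hmR hLc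
    have hM : ∀ J', J' < J → E.MGoal a J' := fun J' h => ih J' h (by omega)
    have hLm : L.face J false = mid.face J true := hLc.trans ((nu K).tgt_cmp_le hmR le_rfl)
    obtain ⟨Lh, Ll, hLh, hLl, o1, eL, rLh, rLl⟩ := D.split_rank hL (D.r a)
    have o2 : Ll.face J false = mid.face J true := by
      rw [← hLm, ← eL]; exact ((nu K).src_cmp_le o1 le_rfl).symm
    obtain ⟨mid', U', hm', hU', rU', o4, e1, v1⟩ := low_swap (E := E) hJ hM hm hLl o2 rLl
    have o8 : U'.face J false = R.face J true :=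
      ((nu K).ends_eq o2 o4 e1).1.symm.trans hmR
    obtain ⟨Rh, Rl, hRh, hRl, o5, eR, rRh, rRl⟩ := D.split_rank (hU'.cmp hR o8) (D.r a)
    have o6 : mid'.face J false = Rh.face J true :=
      o4.trans ((nu K).ends_eq o8 o5 eR.symm).2
    obtain ⟨mid'', U'', hm'', hU'', rU'', o7, e3, v3⟩ :=
      high_swap (E := E) hJ hM hm' hRh o6 rRh
    obtain ⟨o9, o10, key⟩ := (nu K).assemble o1 o2 hmR o4 e1 o5 eR.symm o7 e3
    rw [eL] at key
    have hL'' : Le (J + 1) ((nu K).cmp J Lh U'') := hLh.cmp hU'' o9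
    obtain ⟨hst, p1, p2, p3⟩ := D.parts_unique (L := (nu K).cmp J Lh U'') (by omega) hm'' hL'' hRl
      o10 (((nu K).src_cmp_le o9 le_rfl).trans (o7.trans ((nu K).tgt_cmp_le o10 le_rfl).symm))
      (fun e he => by
        rw [cmp_top o9 J.lt_succ_self, Finsupp.add_apply] at he
        by_cases h : Lh.x (J + 1) true e = 0
        · exact rU'' e (by simpa [h] using he)
        · exact rLh e h) rRl
    rw [key]
    refine ⟨hst, ?_⟩
    show X.cmp J (E.fv (D.lPart a J _)) (X.cmp J (E.V a J (D.cPart a J _))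
      (E.fv (D.rPart a J _))) = _
    rw [p1, p2, p3, ← eL]
    have k1 : ∀ {c : Table K}, Le (J + 1) c → Le k c := fun h => h.mono hJ
    have f : ∀ {c : Table K}, Le (J + 1) c → E.Rep c (E.fv c) := fun h => rep_fv (k1 h)
    have g : ∀ {c : Table K}, D.Stg a J c → E.Rep c (E.V a J c) := fun h => rep_V a J _ hJ.le h
    rw [E.fv_cmp (k1 hLh) (k1 hLl) o1, E.fv_cmp (k1 hLh) (k1 hU'') o9]
    refine ((X.assemble ((f hLh).comp_ok (f hLl) hJ.le o1) ((f hLl).comp_ok (g hm) hJ.le o2)
      ((g hm).comp_ok (f hR) hJ.le hmR) ((g hm').comp_ok (f hU') hJ.le o4) v1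
      ((f hRh).comp_ok (f hRl) hJ.le o5) ?_ ((f hU'').comp_ok (g hm'') hJ.le o7) v3).2.2).symm
    rw [← E.fv_cmp (k1 hU') (k1 hR) o8, ← E.fv_cmp (k1 hRh) (k1 hRl) o5, eR]

/-- Whiskering a whiskered atom on the source side. -/
theorem whisker_right (a : K.B (k + 1)) :
    ∀ (j : ℕ) (c d : Table K) (i : ℕ), j ≤ k → D.Stg a j c → Le j d → i < j →
      c.face i false = d.face i true →
      D.Stg a j ((nu K).cmp i c d) ∧
        E.V a j ((nu K).cmp i c d) = X.cmp i (E.V a j c) (E.fv d) := by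
  intro j
  induction j with
  | zero => intro c d i _ _ _ hi; omega
  | succ J ih =>
    intro c d i hJ hc hd hi h
    have hn : J + 1 < k + 1 := by omega
    obtain ⟨e₁, e₂⟩ := hc.composable hn
    obtain ⟨c1, c2, c3, c4⟩ := hc.cPart_x hn
    have hR1 : Le (J + 1) (D.rPart a J c) := (cut_x (hc.r_ok hn)).2.2.2
    have hL1 : Le (J + 1) (D.lPart a J c) := (cut_x (hc.l_ok hn)).2.2.2
    set L : Table K := D.lPart a J c
    set m : Table K := D.cPart a J c
    set R : Table K := D.rPart a J c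
    have hc' : (nu K).cmp J L ((nu K).cmp J m R) = c := hc.eq_cmp hn
    have k1 : ∀ {c : Table K}, Le (J + 1) c → Le k c := fun h => h.mono (by omega)
    have rm := rep_V (E := E) a J m (by omega) c4
    have rR := rep_fv (E := E) (k1 hR1)
    have rL := rep_fv (E := E) (k1 hL1)
    have rd := rep_fv (E := E) (k1 hd)
    have hmR : m.face J false = R.face J true := e₁
    have hLm : L.face J false = ((nu K).cmp J m R).face J true := e₂
    have xmR := rm.comp_ok rR (by omega) hmR
    have xLm := rL.comp_ok (rm.cmp rR (by omega) hmR) (by omega) hLm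
    have hVc : E.V a (J + 1) c = X.cmp J (E.fv L) (X.cmp J (E.V a J m) (E.fv R)) := rfl
    have hRd : R.face i false = d.face i true := by
      rw [← h, ← hc']
      exact (((nu K).src_cmp_le hLm (by omega)).trans ((nu K).src_cmp_le hmR (by omega))).symm
    rcases Nat.eq_or_lt_of_le (Nat.le_of_lt_succ hi) with rfl | hiJ
    · have key : (nu K).cmp i c d = (nu K).cmp i L ((nu K).cmp i m ((nu K).cmp i R d)) := by
        rw [← hc', (nu K).cmp_assoc hLm (((nu K).src_cmp_le hmR le_rfl).trans hRd),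
          (nu K).cmp_assoc hmR hRd]
      have o : m.face i false = ((nu K).cmp i R d).face i true :=
        hmR.trans ((nu K).tgt_cmp_le hRd le_rfl).symm
      obtain ⟨hst, hV⟩ := mGoal (E := E) a i (by omega) L m ((nu K).cmp i R d) c4 hL1
        (hR1.cmp hd hRd) o
        (hLm.trans (((nu K).tgt_cmp_le hmR le_rfl).trans ((nu K).tgt_cmp_le o le_rfl).symm))
      rw [key]
      refine ⟨hst, hV.trans ?_⟩
      have xRd := rR.comp_ok rd (by omega) hRd
      rw [E.fv_cmp (k1 hR1) (k1 hd) hRd, hVc,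
        X.cmp_assoc xLm (by rw [X.src_cmp_le xmR le_rfl, xRd]), X.cmp_assoc xmR xRd]
    · set d0 : Table K := d.face J false
      have hd0 : Le J d0 := le_face _ _ _
      obtain ⟨a1, a2, a3, a4, a5, key⟩ := (nu K).whisk_right hiJ (d := d) hmR hLm hRd
      rw [hc'] at key
      obtain ⟨hstm, hVm⟩ := ih m d0 i (by omega) c4 hd0 hiJ a2
      obtain ⟨hst, hV⟩ := mGoal (E := E) a J (by omega) ((nu K).cmp i L d) ((nu K).cmp i m d0)
        ((nu K).cmp i R d0) hstm (hL1.cmp hd a1) (hR1.cmp (hd0.mono J.le_succ) a3) a4 a5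
      rw [key]
      refine ⟨hst, hV.trans ?_⟩
      obtain ⟨-, -, -, -, -, keyX⟩ := X.whisk_right hiJ (d := E.fv d) xmR xLm
        (rR.comp_ok rd (by omega) hRd)
      rw [hVc, keyX, E.fv_cmp (k1 hL1) (k1 hd) a1, hVm,
        E.fv_cmp (k1 hR1) (k1 (hd0.mono J.le_succ)) a3, E.fv_src (k1 hd)]

/-- Whiskering a whiskered atom on the target side. -/
theorem whisker_left (a : K.B (k + 1)) :
    ∀ (j : ℕ) (c d : Table K) (i : ℕ), j ≤ k → D.Stg a j c → Le j d → i < j →
      d.face i false = c.face i true →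
      D.Stg a j ((nu K).cmp i d c) ∧
        E.V a j ((nu K).cmp i d c) = X.cmp i (E.fv d) (E.V a j c) := by
  intro j
  induction j with
  | zero => intro c d i _ _ _ hi; omega
  | succ J ih =>
    intro c d i hJ hc hd hi h
    have hn : J + 1 < k + 1 := by omega
    obtain ⟨e₁, e₂⟩ := hc.composable hn
    obtain ⟨c1, c2, c3, c4⟩ := hc.cPart_x hn
    have hR1 : Le (J + 1) (D.rPart a J c) := (cut_x (hc.r_ok hn)).2.2.2
    have hL1 : Le (J + 1) (D.lPart a J c) := (cut_x (hc.l_ok hn)).2.2.2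
    set L : Table K := D.lPart a J c
    set m : Table K := D.cPart a J c
    set R : Table K := D.rPart a J c
    have hc' : (nu K).cmp J L ((nu K).cmp J m R) = c := hc.eq_cmp hn
    have k1 : ∀ {c : Table K}, Le (J + 1) c → Le k c := fun h => h.mono (by omega)
    have rm := rep_V (E := E) a J m (by omega) c4
    have rR := rep_fv (E := E) (k1 hR1)
    have rL := rep_fv (E := E) (k1 hL1)
    have rd := rep_fv (E := E) (k1 hd)
    have hmR : m.face J false = R.face J true := e₁
    have hLm : L.face J false = ((nu K).cmp J m R).face J true := e₂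
    have xmR := rm.comp_ok rR (by omega) hmR
    have xLm := rL.comp_ok (rm.cmp rR (by omega) hmR) (by omega) hLm
    have hVc : E.V a (J + 1) c = X.cmp J (E.fv L) (X.cmp J (E.V a J m) (E.fv R)) := rfl
    rcases Nat.eq_or_lt_of_le (Nat.le_of_lt_succ hi) with rfl | hiJ
    · have hdL : d.face i false = L.face i true := by
        rw [h, ← hc']; exact (nu K).tgt_cmp_le hLm le_rfl
      have key : (nu K).cmp i d c = (nu K).cmp i ((nu K).cmp i d L) ((nu K).cmp i m R) := by
        rw [← hc', (nu K).cmp_assoc hdL hLm]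
      obtain ⟨hst, hV⟩ := mGoal (E := E) a i (by omega) ((nu K).cmp i d L) m R c4
        (hd.cmp hL1 hdL) hR1 hmR (((nu K).src_cmp_le hdL le_rfl).trans hLm)
      rw [key]
      refine ⟨hst, hV.trans ?_⟩
      rw [E.fv_cmp (k1 hd) (k1 hL1) hdL, hVc,
        X.cmp_assoc (rd.comp_ok rL (by omega) hdL) xLm]
    · have hdL : d.face i false = L.face i true := by
        rw [h, ← hc']; exact (nu K).tgt_cmp_le' hiJ hLm
      set d0 : Table K := d.face J false
      have hd0 : Le J d0 := le_face _ _ _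
      obtain ⟨a2, a3, a4, a5, key⟩ := (nu K).whisk_left hiJ (d := d) hmR hLm hdL
      rw [hc'] at key
      obtain ⟨hstm, hVm⟩ := ih m d0 i (by omega) c4 hd0 hiJ a2
      obtain ⟨hst, hV⟩ := mGoal (E := E) a J (by omega) ((nu K).cmp i d L) ((nu K).cmp i d0 m)
        ((nu K).cmp i d0 R) hstm (hd.cmp hL1 hdL) ((hd0.mono J.le_succ).cmp hR1 a3) a4 a5
      rw [key]
      refine ⟨hst, hV.trans ?_⟩
      obtain ⟨-, -, -, -, keyX⟩ := X.whisk_left hiJ (d := E.fv d) xmR xLm
        (rd.comp_ok rL (by omega) hdL)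
      rw [hVc, keyX, E.fv_cmp (k1 hd) (k1 hL1) hdL, hVm,
        E.fv_cmp (k1 (hd0.mono J.le_succ)) (k1 hR1) a3, E.fv_src (k1 hd)]

end Ext

end

end Vale.Agent.P213.ADC
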